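import Vale.Agent.P048.Bdl.B1

set_option linter.all false

/-! General breadth first search: growth of independent sets unless there is a large clique. -/

namespace Vale.Agent.P048.H9

open Finset Vale.Agent.P048

variable {V : Type*}

/-- state of the search -/
structure St (G : SimpleGraph V) (B : ℕ → Finset V) (a : V) (h : ℕ) (R U I : Finset V) : Prop where
  haR : a ∈ R
  RB : R ⊆ B h
  UB : U ⊆ B (h + 1)
  RU : Disjoint R U
  cl : ∀ w ∈ B (h + 1), w ∉ R → (∃ z ∈ R, G.Adj z w) → w ∈ U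
  ear : Ear G R U h
  IU : I ⊆ U
  ind : Ind G I
  mx : AlLe G U I.card
  ne : I.Nonempty

/-- the balls of the search: `X` is the set of forbidden vertices. -/
structure Balls (G : SimpleGraph V) (W X : Finset V) (B : ℕ → Finset V) (a : V) (H : ℕ) : Prop where
  a0 : a ∈ B 0
  mono : ∀ h, B h ⊆ B (h + 1)
  s1 : ∀ h, ∀ z ∈ B h, ∀ w ∈ B (h + 2), G.Adj z w → w ∈ B (h + 1)
  s2 : ∀ h ≤ H, ∀ z ∈ B (h + 1), z ≠ a → ∀ w ∈ W, G.Adj z w → w ∈ B (h + 2) ∨ w ∈ X
  s3 : ∀ h, ∀ z ∈ B h, z ≠ a → z ∈ W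

/-- light levels -/
theorem light (G : SimpleGraph V) (M κ A : ℕ) (hMκ : M ≤ 2 * κ + 1) (hκ : 3 ≤ κ)
    (hA : A < (κ - 1) * κ + 1) (hno : ¬ HasC G (M + 1)) (R U : Finset V) (h : ℕ)
    (hE : Ear G R U h) (hRU : Disjoint R U) (hh : 2 * (h + 1) ≤ M)
    (hcl : ∀ K ⊆ U, Clq G K → K.card ≤ κ) (hal : AlLe G U A) (k : ℕ) (hk : AlLe G U k) :
    U.card ≤ κ * k := by
  classical
  by_contra hcon
  push Not at hcon
  obtain ⟨H, hHU, j, hj, h5, h6, h7⟩ := exists_expd G κ U.card U k le_rfl hk (by omega)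
  obtain ⟨K, hK, hKc, hKk⟩ := ear_clique G R U h M κ A hMκ hκ hA hE hRU hh hno H hHU
    (Finset.card_pos.1 (by omega)) h7 (hal.mono hHU)
  have := hcl K (hK.trans hHU) hKc
  omega

/-- one step -/
theorem St.step {G : SimpleGraph V} {W X : Finset V} {B : ℕ → Finset V} {a : V} {H : ℕ}
    (hB : Balls G W X B a H) {M : ℕ} (hexp : Expd G W M) {h : ℕ} (hh : h ≤ H)
    {R U I : Finset V} (hS : St G B a h R U I) :
    ∃ R' U' I' : Finset V, a ∈ R' ∧ R' ⊆ B (h + 1) ∧ U' ⊆ B (h + 2) ∧ Disjoint R' U' ∧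
      (∀ w ∈ B (h + 2), w ∉ R' → (∃ z ∈ R', G.Adj z w) → w ∈ U') ∧ Ear G R' U' (h + 1) ∧
      I' ⊆ U' ∧ Ind G I' ∧ AlLe G U' I'.card ∧ R'.card = R.card + I.card ∧
      M * I.card + 1 ≤ X.card + (R.card + I.card) + U'.card := by
  classical
  set R' := R ∪ I with hR'
  set U' := (B (h + 2)).filter (fun w => w ∉ R' ∧ ∃ z ∈ R', G.Adj z w) with hU'
  obtain ⟨I', hI'U, hI'i, hI'max⟩ := exists_max_ind G U'
  have hRI : Disjoint R I := Finset.disjoint_of_subset_right hS.IU hS.RU
  have hR'card : R'.card = R.card + I.card := Finset.card_union_of_disjoint hRI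
  have hdisj : Disjoint R' U' := by
    rw [Finset.disjoint_left]
    intro w hw hw'
    exact (Finset.mem_filter.1 hw').2.1 hw
  have hpar : ∀ w ∈ U', ∃ i ∈ I, G.Adj w i := by
    intro w hw
    obtain ⟨hwB, hwR', z, hz, hzw⟩ := Finset.mem_filter.1 hw
    rcases Finset.mem_union.1 hz with hz | hz
    · by_contra hcon
      push Not at hcon
      have hwR : w ∉ R := fun h => hwR' (Finset.mem_union_left _ h)
      have hwI : w ∉ I := fun h => hwR' (Finset.mem_union_right _ h)
      have hwU : w ∈ U := hS.cl w (hB.s1 h z (hS.RB hz) w hwB hzw) hwR ⟨z, hz, hzw⟩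
      have h1 : Ind G (insert w I) := hS.ind.insert fun i hi hadj => hcon i hi hadj.symm
      have h2 := hS.mx _ (Finset.insert_subset hwU hS.IU) h1
      rw [Finset.card_insert_of_notMem hwI] at h2
      omega
    · exact ⟨z, hz, hzw.symm⟩
  have hE' : Ear G R' U' (h + 1) := hS.ear.step hS.RU hS.IU hpar
  have hIB : I ⊆ B (h + 1) := hS.IU.trans hS.UB
  have hIa : ∀ j ∈ I, j ≠ a := by
    rintro j hj rfl
    exact Finset.disjoint_left.1 hRI hS.haR hj
  refine ⟨R', U', I', Finset.mem_union_left _ hS.haR,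
    Finset.union_subset (hS.RB.trans (hB.mono h)) hIB, Finset.filter_subset _ _, hdisj,
    fun w hw hwR hz => Finset.mem_filter.2 ⟨hw, hwR, hz⟩, hE', hI'U, hI'i, hI'max, hR'card, ?_⟩
  have hIW : I ⊆ W := fun j hj => hB.s3 (h + 1) j (hIB hj) (hIa j hj)
  have h1 : nbc G W I ⊆ X ∪ R' ∪ U' := by
    intro v hv
    rw [mem_nbc] at hv
    by_cases hvR : v ∈ R'
    · exact Finset.mem_union_left _ (Finset.mem_union_right _ hvR)
    · rcases hv.2 with h2 | ⟨j, hj, hjv⟩
      · exact absurd (Finset.mem_union_right _ h2) hvR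
      · rcases hB.s2 h hh j (hIB hj) (hIa j hj) v hv.1 hjv with h3 | h3
        · exact Finset.mem_union_right _ (Finset.mem_filter.2 ⟨h3, hvR, j,
            Finset.mem_union_right _ hj, hjv⟩)
        · exact Finset.mem_union_left _ (Finset.mem_union_left _ h3)
  have h2 := hexp I hIW hS.ind hS.ne
  have h3 := (Finset.card_le_card h1).trans (Finset.card_union_le _ _)
  have h4 := Finset.card_union_le X R'
  omega

/-- the growth of the independent sets. -/
theorem growth {G : SimpleGraph V} {W X : Finset V} {B : ℕ → Finset V} {a : V} {H : ℕ}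
    (hB : Balls G W X B a H) {M κ A q δ : ℕ} (hexp : Expd G W M) (hno : ¬ HasC G (M + 1))
    (hMκ : M ≤ 2 * κ + 1) (hκ : 3 ≤ κ) (hA : A < (κ - 1) * κ + 1) (hH : 2 * (H + 2) ≤ M)
    (hX : X.card ≤ δ) (hq : κ * (q + 1) + q * (1 + q + δ) ≤ q * M) (hq1 : 1 ≤ q)
    (hcl : ∀ K ⊆ B (H + 2), Clq G K → K.card ≤ κ) (hal : AlLe G (B (H + 2)) A)
    (hne : ∃ w ∈ B 1, G.Adj a w) :
    ∀ h ≤ H + 1, ∃ R U I : Finset V, St G B a h R U I ∧ R.card ≤ 1 + q * I.card ∧
      (q + 1) ^ h ≤ I.card * q ^ h := by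
  classical
  have hBm : ∀ i j, i ≤ j → B i ⊆ B j := by
    intro i j hij
    induction hij with
    | refl => exact subset_rfl
    | step _ ih => exact ih.trans (hB.mono _)
  intro h
  induction h with
  | zero =>
    intro _
    obtain ⟨w0, hw0, haw0⟩ := hne
    obtain ⟨I, hIU, hIi, hImax⟩ := exists_max_ind G ((B 1).filter (G.Adj a))
    have hIne : I.Nonempty := by
      rw [← Finset.card_pos]
      have h1 := hImax {w0} (by
        intro z hz
        rw [Finset.mem_singleton.1 hz]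
        exact Finset.mem_filter.2 ⟨hw0, haw0⟩) (by
        intro p hp q' hq'
        rw [Finset.mem_singleton] at hp hq'
        rw [hp, hq']
        exact G.loopless.irrefl _)
      rw [Finset.card_singleton] at h1
      omega
    refine ⟨{a}, (B 1).filter (G.Adj a), I, ⟨Finset.mem_singleton_self a, ?_,
      Finset.filter_subset _ _, ?_, ?_, Ear.zero G a _ (fun w hw => (Finset.mem_filter.1 hw).2),
      hIU, hIi, hImax, hIne⟩, ?_, ?_⟩
    · intro z hz
      rw [Finset.mem_singleton.1 hz]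
      exact hB.a0
    · rw [Finset.disjoint_left]
      intro w hw hw'
      rw [Finset.mem_singleton.1 hw] at hw'
      exact G.loopless.irrefl _ (Finset.mem_filter.1 hw').2
    · rintro w hw - ⟨z, hz, hzw⟩
      rw [Finset.mem_singleton.1 hz] at hzw
      exact Finset.mem_filter.2 ⟨hw, hzw⟩
    · rw [Finset.card_singleton]
      omega
    · have := Finset.card_pos.2 hIne
      simp only [pow_zero, mul_one]
      omega
  | succ h ih =>
    intro hh
    obtain ⟨R, U, I, hS, hR, hg⟩ := ih (by omega)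
    obtain ⟨R', U', I', haR', hR'B, hU'B, hd, hcl', hE', hI'U, hI'i, hI'm, hRc, hcount⟩ :=
      hS.step hB hexp (h := h) (by omega)
    have hU'B2 : U' ⊆ B (H + 2) := hU'B.trans (hBm _ _ (by omega))
    have hl := light G M κ A hMκ hκ hA hno R' U' (h + 1) hE' hd (by omega)
      (fun K hK => hcl K (hK.trans hU'B2)) (hal.mono hU'B2) I'.card hI'm
    have hu : 1 ≤ I.card := Finset.card_pos.2 hS.ne
    -- the growth factor
    have key : κ * ((q + 1) * I.card) ≤ κ * (q * I'.card) := by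
      have h1 : M * I.card + 1 ≤ δ + (1 + q * I.card + I.card) + κ * I'.card := by omega
      have h2 : q * (M * I.card + 1) ≤ q * (δ + (1 + q * I.card + I.card) + κ * I'.card) :=
        Nat.mul_le_mul_left _ h1
      have h3 : (κ * (q + 1) + q * (1 + q + δ)) * I.card ≤ (q * M) * I.card :=
        Nat.mul_le_mul_right _ hq
      have h4 : q * δ * 1 ≤ q * δ * I.card := Nat.mul_le_mul_left _ hu
      nlinarith only [h2, h3, h4]
    have hκ0 : 0 < κ := by omega
    have key2 : (q + 1) * I.card ≤ q * I'.card := Nat.le_of_mul_le_mul_left key hκ0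
    have hI'ne : I'.Nonempty := by
      rw [← Finset.card_pos]
      by_contra h0
      have h0' : I'.card = 0 := by omega
      rw [h0', Nat.mul_zero] at key2
      have : 1 ≤ (q + 1) * I.card := Nat.mul_pos (by omega) (by omega)
      omega
    refine ⟨R', U', I', ⟨haR', hR'B, hU'B, hd, hcl', hE', hI'U, hI'i, hI'm, hI'ne⟩, ?_, ?_⟩
    · rw [hRc]
      have : (q + 1) * I.card = q * I.card + I.card := by ring
      omega
    · calc (q + 1) ^ (h + 1) = (q + 1) * (q + 1) ^ h := by ring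
        _ ≤ (q + 1) * (I.card * q ^ h) := Nat.mul_le_mul_left _ hg
        _ = ((q + 1) * I.card) * q ^ h := by ring
        _ ≤ (q * I'.card) * q ^ h := Nat.mul_le_mul_right _ key2
        _ = I'.card * q ^ (h + 1) := by ring

end Vale.Agent.P048.H9
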