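import Vale.Agent.P048.H9.Cyc

set_option linter.all false

/-! The quadratic range. -/

namespace Vale.Agent.P048.H9

open Finset Vale.Agent.P048

variable {V : Type*}

/-- the balls around a predecessor of a clique vertex -/
theorem balls_of_cyc [DecidableEq V] {G : SimpleGraph V} {W K : Finset V} {M ℓ : ℕ} {x : ℕ → V}
    (hx : Cyc G W K M ℓ x) (hno : ¬ HasC G (M + 1)) (hK : Clq G K) (O S s : Finset V)
    (hO : ∀ w, w ∈ O ↔ w ∈ W ∧ ∀ t, x t ≠ w) (hS : S = (range ℓ).image x)
    (hs : s = ((range ℓ).filter (fun i => x (i + 1) ∈ K)).image x)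
    (B : ℕ → Finset V) (i : ℕ) (hi : i < ℓ) (hiK : x (i + 1) ∈ K)
    (hB : ∀ h w, w ∈ B h ↔ w = x i ∨ Reach G O (x i) h w) (H : ℕ)
    (hH : M + (H + 1) + 1 ≤ 2 * K.card) : Balls G W (S \ s) B (x i) H := by
  refine ⟨?_, ?_, ?_, ?_, ?_⟩
  · rw [hB]
    exact Or.inl rfl
  · intro h w hw
    rw [hB] at hw ⊢
    rcases hw with hw | hw
    · exact Or.inl hw
    · exact Or.inr (hw.mono (by omega))
  · intro h z hz w hw hzw
    rw [hB] at hz hw ⊢
    rcases hw with hw | hw
    · exact Or.inl hw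
    · right
      rcases hz with hz | hz
      · rw [hz] at hzw
        exact (Reach.of_adj (le_refl 1) hw.1 hzw).mono (by omega)
      · exact hz.step hw.1 hzw
  · intro h hh z hz hza w hw hzw
    rw [hB] at hz
    rcases hz with hz | hz
    · exact absurd hz hza
    by_cases hwO : w ∈ O
    · left
      rw [hB]
      exact Or.inr (hz.step hwO hzw)
    · have hwt : ∃ t, x t = w := by
        by_contra hcon
        push Not at hcon
        exact hwO ((hO w).2 ⟨hw, hcon⟩)
      obtain ⟨t, rfl⟩ := hwt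
      by_cases hws : x t ∈ s
      · left
        rw [hB]
        left
        rw [hs, Finset.mem_image] at hws
        obtain ⟨j, hj, hjt⟩ := hws
        rw [Finset.mem_filter, Finset.mem_range] at hj
        by_contra hne
        have hij : i ≠ j := by
          rintro rfl
          exact hne hjt.symm
        obtain ⟨hzO, u, hu, hau, p, hp⟩ := hz
        obtain ⟨Y, hY1, hY2, hY3, hY4, hY5⟩ := walk_to_isP G O hu p
        refine hx.no_ear hno hK i j hi hj.1 hij hiK hj.2 u z Y ⟨hY1, hY3, hY4⟩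
          (fun w hw => ((hO w).1 (hY5 w hw)).1) (fun w hw => ((hO w).1 (hY5 w hw)).2) hau ?_
          (by omega)
        rw [hjt]
        exact hzw
      · right
        rw [Finset.mem_sdiff]
        refine ⟨?_, hws⟩
        rw [hS]
        exact hx.set.2 t
  · intro h z hz hza
    rw [hB] at hz
    rcases hz with hz | hz
    · exact absurd hz hza
    · exact ((hO z).1 hz.1).1

/-- many independent vertices near a large clique -/
theorem near_clique [DecidableEq V] {G : SimpleGraph V} {W X : Finset V} {B : ℕ → Finset V}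
    {a : V} {H M : ℕ} (hB : Balls G W X B a (H + 1)) (hno : ¬ HasC G (M + 1)) (hM : 1 ≤ M)
    (hdeg : ∀ v ∈ W, M ≤ dg G W v) {κ δ : ℕ} (hκ : M + 3 ≤ 2 * κ) (hX : X.card ≤ δ)
    (K : Finset V) (hKB : K ⊆ B (H + 2)) (hK : Clq G K) (hKc : κ + 1 ≤ K.card) :
    ∃ P ⊆ B (H + 3), a ∉ P ∧ Ind G P ∧ 2 * κ ≤ P.card + M + δ + 1 := by
  classical
  have hLc0 : κ ≤ (K.erase a).card := by
    have := Finset.pred_card_le_card_erase (s := K) (a := a)
    omega
  set L := K.erase a with hL
  have hLc : κ ≤ L.card := hLc0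
  have hLK : L ⊆ K := Finset.erase_subset _ _
  have hLcl : Clq G L := fun u hu v hv huv => hK u (hLK hu) v (hLK hv) huv
  have hLa : ∀ v ∈ L, v ≠ a := fun v hv => Finset.ne_of_mem_erase hv
  have hLB : L ⊆ B (H + 2) := hLK.trans hKB
  have hLW : L ⊆ W := fun v hv => hB.s3 _ v (hLB hv) (hLa v hv)
  have hLM : L.card ≤ M := by
    by_contra hlt
    push Not at hlt
    exact hno (clique_hasC G L hLcl (M + 1) (by omega) hlt)
  obtain ⟨ℓ, x, hx⟩ := exists_cyc G W L M hLW hLcl hLM (by omega)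
  set E := (range ℓ).filter (fun i => x i ∈ L ∧ x (i + 1) ∈ L) with hE
  have hEc : 2 * L.card ≤ E.card + ℓ := card_E hx.isF hx.one L hx.hK
  have hout : ∀ i, ∃ y, y ∈ W ∧ (∀ t, x t ≠ y) ∧ G.Adj (x i) y := fun i => hx.out hdeg i
  choose y hyW hyo hyadj using hout
  have hEm : ∀ i ∈ E, i < ℓ ∧ x i ∈ L ∧ x (i + 1) ∈ L := by
    intro i hi
    rw [hE, Finset.mem_filter, Finset.mem_range] at hi
    exact hi
  have hsep : ∀ i ∈ E, ∀ j ∈ E, i ≠ j → y i ≠ y j ∧ ¬ G.Adj (y i) (y j) := by
    intro i hi j hj hij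
    obtain ⟨hi1, hi2, hi3⟩ := hEm i hi
    obtain ⟨hj1, hj2, hj3⟩ := hEm j hj
    constructor
    · intro heq
      refine hx.no_ear hno hLcl i j hi1 hj1 hij hi3 hj3 (y i) (y i) [y i]
        ⟨⟨by simp, by simp⟩, by simp, by simp⟩ ?_ ?_ (hyadj i) ?_ (by
          rw [List.length_singleton]; omega)
      · intro w hw
        rw [List.mem_singleton.1 hw]
        exact hyW i
      · intro w hw
        rw [List.mem_singleton.1 hw]
        exact hyo i
      · rw [heq]
        exact (hyadj j).symm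
    · intro hadj
      refine hx.no_ear hno hLcl i j hi1 hj1 hij hi3 hj3 (y i) (y j) [y i, y j]
        ⟨⟨?_, ?_⟩, by simp, by simp⟩ ?_ ?_ (hyadj i) (hyadj j).symm (by
          simp only [List.length_cons, List.length_nil]; omega)
      · rw [List.isChain_cons_cons]
        exact ⟨hadj, by simp⟩
      · rw [List.nodup_cons]
        refine ⟨?_, by simp⟩
        rw [List.mem_singleton]
        exact hadj.ne
      · intro w hw
        simp only [List.mem_cons, List.not_mem_nil, or_false] at hw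
        rcases hw with rfl | rfl
        · exact hyW i
        · exact hyW j
      · intro w hw
        simp only [List.mem_cons, List.not_mem_nil, or_false] at hw
        rcases hw with rfl | rfl
        · exact hyo i
        · exact hyo j
  set J := E.image y with hJ
  have hJc : J.card = E.card := by
    rw [hJ, Finset.card_image_of_injOn]
    intro i hi j hj hij
    by_contra hne
    exact (hsep i hi j hj hne).1 hij
  have hJi : Ind G J := by
    intro p hp q hq hpq
    rw [hJ, Finset.mem_image] at hp hq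
    obtain ⟨i, hi, rfl⟩ := hp
    obtain ⟨j, hj, rfl⟩ := hq
    by_cases hij : i = j
    · rw [hij] at hpq
      exact G.loopless.irrefl _ hpq
    · exact (hsep i hi j hj hij).2 hpq
  have hJB : ∀ v ∈ J, v ∈ B (H + 3) ∨ v ∈ X := by
    intro v hv
    rw [hJ, Finset.mem_image] at hv
    obtain ⟨i, hi, rfl⟩ := hv
    obtain ⟨hi1, hi2, hi3⟩ := hEm i hi
    exact hB.s2 (H + 1) le_rfl (x i) (hLB hi2) (hLa _ hi2) (y i) (hyW i) (hyadj i)
  refine ⟨J \ (insert a X), ?_, ?_, ?_, ?_⟩
  · intro v hv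
    rw [Finset.mem_sdiff, Finset.mem_insert, not_or] at hv
    rcases hJB v hv.1 with h | h
    · exact h
    · exact absurd h hv.2.2
  · intro h
    exact (Finset.mem_sdiff.1 h).2 (Finset.mem_insert_self _ _)
  · intro p hp q hq
    exact hJi p (Finset.mem_sdiff.1 hp).1 q (Finset.mem_sdiff.1 hq).1
  · have h1 := Finset.le_card_sdiff (insert a X) J
    have h2 := Finset.card_insert_le a X
    have h3 := hx.le
    omega

/-- the quadratic lemma -/
theorem quad (G : SimpleGraph V) (W : Finset V) (M k κ₁ κ₂ q δ H T : ℕ)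
    (hM : 7 ≤ M) (hno : ¬ HasC G (M + 1)) (hexp : Expd G W M) (hal : AlLe G W k)
    (K : Finset V) (hKW : K ⊆ W) (hK : Clq G K) (hKc : κ₁ + 1 ≤ K.card)
    (hδ : M ≤ κ₁ + 1 + δ) (hH : 2 * (H + 3) + M ≤ 2 * κ₁ + 1)
    (hq : κ₂ * (q + 1) + q * (1 + q + δ) ≤ q * M) (hq1 : 1 ≤ q) (hκ : M + 3 ≤ 2 * κ₂)
    (hκ3 : 3 ≤ κ₂) (hA : k < (κ₂ - 1) * κ₂ + 1) (hT1 : T * q ^ (H + 1) ≤ (q + 1) ^ (H + 1))
    (hT2 : T + M + δ + 1 ≤ 2 * κ₂) : (κ₁ + 1) * T ≤ k := by
  classical
  have hdeg : ∀ v ∈ W, M ≤ dg G W v := fun v hv => hexp.deg hv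
  have hKM : K.card ≤ M := by
    by_contra hlt
    push Not at hlt
    exact hno (clique_hasC G K hK (M + 1) (by omega) hlt)
  obtain ⟨ℓ, x, hx⟩ := exists_cyc G W K M hKW hK hKM (by omega)
  set O : Finset V := W.filter (fun w => ∀ t, x t ≠ w) with hO
  have hOmem : ∀ w, w ∈ O ↔ w ∈ W ∧ ∀ t, x t ≠ w := by
    intro w
    rw [hO, Finset.mem_filter]
  set S : Finset V := (range ℓ).image x with hS
  set s : Finset V := ((range ℓ).filter (fun i => x (i + 1) ∈ K)).image x with hs
  have hsc : K.card ≤ s.card := hx.pred_card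
  have hsS : s ⊆ S := Finset.image_subset_image (Finset.filter_subset _ _)
  have hSc : S.card = ℓ := hx.set.1
  have hXc : (S \ s).card ≤ δ := by
    have := Finset.card_sdiff_add_card_eq_card hsS
    have := hx.le
    omega
  have hsm : ∀ a ∈ s, ∃ i, i < ℓ ∧ x (i + 1) ∈ K ∧ x i = a := by
    intro a ha
    rw [hs, Finset.mem_image] at ha
    obtain ⟨i, hi, hia⟩ := ha
    rw [Finset.mem_filter, Finset.mem_range] at hi
    exact ⟨i, hi.1, hi.2, hia⟩
  have hex : ∀ a, ∃ P : Finset V, a ∈ s → (∀ w ∈ P, Reach G O a (H + 3) w) ∧ Ind G P ∧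
      T ≤ P.card := by
    intro a
    by_cases has : a ∈ s
    swap
    · exact ⟨∅, fun h => absurd h has⟩
    obtain ⟨i, hi, hiK, rfl⟩ := hsm a has
    set B : ℕ → Finset V := fun h => insert (x i) (O.filter (fun w => Reach G O (x i) h w)) with hBdef
    have hBm : ∀ h w, w ∈ B h ↔ w = x i ∨ Reach G O (x i) h w := by
      intro h w
      rw [hBdef]
      simp only [Finset.mem_insert, Finset.mem_filter]
      constructor
      · rintro (h1 | h1)
        · exact Or.inl h1
        · exact Or.inr h1.2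
      · rintro (h1 | h1)
        · exact Or.inl h1
        · exact Or.inr ⟨h1.1, h1⟩
    have hB : Balls G W (S \ s) B (x i) (H + 1) :=
      balls_of_cyc hx hno hK O S s hOmem rfl rfl B i hi hiK hBm (H + 1) (by omega)
    have hB' : Balls G W (S \ s) B (x i) H :=
      ⟨hB.a0, hB.mono, hB.s1, fun h hh => hB.s2 h (by omega), hB.s3⟩
    have hred : ∀ P ⊆ B (H + 3), x i ∉ P → ∀ w ∈ P, Reach G O (x i) (H + 3) w := by
      intro P hP hiP w hw
      rcases (hBm _ w).1 (hP hw) with h1 | h1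
      · rw [h1] at hw
        exact absurd hw hiP
      · exact h1
    by_cases hcl : ∀ L ⊆ B (H + 2), Clq G L → L.card ≤ κ₂
    · -- growth
      have halB : AlLe G (B (H + 2)) k := by
        intro I hI hIi
        by_cases hiI : x i ∈ I
        · refine hal I ?_ hIi
          intro w hw
          by_cases hwi : w = x i
          · rw [hwi]
            exact hx.inW i
          · exact hB.s3 _ w (hI hw) hwi
        · exact hal I (fun w hw => hB.s3 _ w (hI hw) (fun h => hiI (h ▸ hw))) hIi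
      obtain ⟨y, hyW, hyo, hyadj⟩ := hx.out hdeg i
      have hyO : y ∈ O := (hOmem y).2 ⟨hyW, hyo⟩
      obtain ⟨R, U, I, hSt, -, hg⟩ := growth hB' hexp hno (by omega) hκ3 hA (by omega) hXc hq
        hq1 hcl halB ⟨y, (hBm _ y).2 (Or.inr (Reach.of_adj (le_refl 1) hyO hyadj)), hyadj⟩
        (H + 1) le_rfl
      refine ⟨I, fun _ => ⟨hred I ((hSt.IU.trans hSt.UB).trans (hB.mono _)) ?_, hSt.ind, ?_⟩⟩
      · intro h
        exact Finset.disjoint_left.1 hSt.RU hSt.haR (hSt.IU h)
      · have h1 : T * q ^ (H + 1) ≤ I.card * q ^ (H + 1) := hT1.trans hg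
        exact Nat.le_of_mul_le_mul_right h1 (Nat.pow_pos (by omega))
    · push Not at hcl
      obtain ⟨L, hLB, hLc, hLk⟩ := hcl
      obtain ⟨P, hPB, hPa, hPi, hPc⟩ := near_clique hB hno (by omega) hdeg hκ hXc L hLB hLc hLk
      exact ⟨P, fun _ => ⟨hred P hPB hPa, hPi, by omega⟩⟩
  choose P hP using hex
  obtain ⟨h1, h2⟩ := glue_ind G s P (fun i hi => (hP i hi).2.1) (by
    intro a ha b hb hab w hw w' hw'
    obtain ⟨i, hi, hiK, rfl⟩ := hsm a ha
    obtain ⟨j, hj, hjK, rfl⟩ := hsm b hb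
    have hij : i ≠ j := by
      rintro rfl
      exact hab rfl
    have key : ¬ (w = w' ∨ G.Adj w w') := by
      intro hcon
      obtain ⟨u, v, Y, hY, hYl, hYO, h1, h2⟩ :=
        ((hP _ ha).1 w hw).join ((hP _ hb).1 w' hw') hcon
      exact hx.no_ear hno hK i j hi hj hij hiK hjK u v Y hY
        (fun w hw => ((hOmem w).1 (hYO w hw)).1) (fun w hw => ((hOmem w).1 (hYO w hw)).2) h1 h2
        (by omega)
    rw [not_or] at key
    exact key)
  have h3 := hal _ (by
    intro w hw
    rw [Finset.mem_biUnion] at hw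
    obtain ⟨a, ha, hwa⟩ := hw
    exact ((hOmem w).1 ((hP a ha).1 w hwa).1).1) h1
  rw [h2] at h3
  have h4 : s.card * T ≤ ∑ a ∈ s, (P a).card := by
    rw [← smul_eq_mul, ← Finset.sum_const]
    exact Finset.sum_le_sum fun a ha => (hP a ha).2.2
  calc (κ₁ + 1) * T ≤ s.card * T := Nat.mul_le_mul_right _ (by omega)
    _ ≤ _ := h4
    _ ≤ k := h3

end Vale.Agent.P048.H9
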