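import Vale.Agent.P048.H9.Earq
import Vale.Agent.P048.H9.Quad

set_option linter.all false

/-! Growth without a bound for the independence number. -/

namespace Vale.Agent.P048.H9

open Finset Vale.Agent.P048

variable {V : Type*}

/-- light levels -/
theorem light2 (G : SimpleGraph V) (M κ : ℕ) (hMκ : M ≤ 2 * κ + 1) (hκ : 3 ≤ κ)
    (hno : ¬ HasC G (M + 1)) (R U : Finset V) (h : ℕ)
    (hE : Ear G R U h) (hRU : Disjoint R U) (hh : 2 * (h + 1) ≤ M)
    (hcl : ∀ K ⊆ U, Clq G K → K.card ≤ κ) (k : ℕ) (hk : AlLe G U k) :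
    U.card ≤ κ * k := by
  classical
  by_contra hcon
  push Not at hcon
  obtain ⟨H, hHU, j, hj, h5, h6, h7⟩ := exists_expd G κ U.card U k le_rfl hk (by omega)
  obtain ⟨K, hK, hKc, hKk⟩ := ear_clique2 G R U h M κ hMκ hκ hE hRU hh hno H hHU
    (Finset.card_pos.1 (by omega)) h7
  have := hcl K (hK.trans hHU) hKc
  omega

/-- the growth of the independent sets. -/
theorem growth2 {G : SimpleGraph V} {W X : Finset V} {B : ℕ → Finset V} {a : V} {H : ℕ}
    (hB : Balls G W X B a H) {M κ q δ : ℕ} (hexp : Expd G W M) (hno : ¬ HasC G (M + 1))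
    (hMκ : M ≤ 2 * κ + 1) (hκ : 3 ≤ κ) (hH : 2 * (H + 2) ≤ M)
    (hX : X.card ≤ δ) (hq : κ * (q + 1) + q * (1 + q + δ) ≤ q * M) (hq1 : 1 ≤ q)
    (hcl : ∀ K ⊆ B (H + 2), Clq G K → K.card ≤ κ)
    (hne : ∃ w ∈ B 1, G.Adj a w) :
    ∀ h ≤ H + 1, ∃ R U I : Finset V, St G B a h R U I ∧ R.card ≤ 1 + q * I.card ∧
      (q + 1) ^ h ≤ I.card * q ^ h := by
  classical
  have hBm : ∀ i j, i ≤ j → B i ⊆ B j := by
    intro i j hij
    induction hij with
    | refl => exact subset_rfl
    | step _ ih => exact ih.trans (hB.mono _)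
  intro h
  induction h with
  | zero =>
    intro _
    obtain ⟨w0, hw0, haw0⟩ := hne
    obtain ⟨I, hIU, hIi, hImax⟩ := exists_max_ind G ((B 1).filter (G.Adj a))
    have hIne : I.Nonempty := by
      rw [← Finset.card_pos]
      have h1 := hImax {w0} (by
        intro z hz
        rw [Finset.mem_singleton.1 hz]
        exact Finset.mem_filter.2 ⟨hw0, haw0⟩) (by
        intro p hp q' hq'
        rw [Finset.mem_singleton] at hp hq'
        rw [hp, hq']
        exact G.loopless.irrefl _)
      rw [Finset.card_singleton] at h1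
      omega
    refine ⟨{a}, (B 1).filter (G.Adj a), I, ⟨Finset.mem_singleton_self a, ?_,
      Finset.filter_subset _ _, ?_, ?_, Ear.zero G a _ (fun w hw => (Finset.mem_filter.1 hw).2),
      hIU, hIi, hImax, hIne⟩, ?_, ?_⟩
    · intro z hz
      rw [Finset.mem_singleton.1 hz]
      exact hB.a0
    · rw [Finset.disjoint_left]
      intro w hw hw'
      rw [Finset.mem_singleton.1 hw] at hw'
      exact G.loopless.irrefl _ (Finset.mem_filter.1 hw').2
    · rintro w hw - ⟨z, hz, hzw⟩
      rw [Finset.mem_singleton.1 hz] at hzw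
      exact Finset.mem_filter.2 ⟨hw, hzw⟩
    · rw [Finset.card_singleton]
      omega
    · have := Finset.card_pos.2 hIne
      simp only [pow_zero, mul_one]
      omega
  | succ h ih =>
    intro hh
    obtain ⟨R, U, I, hS, hR, hg⟩ := ih (by omega)
    obtain ⟨R', U', I', haR', hR'B, hU'B, hd, hcl', hE', hI'U, hI'i, hI'm, hRc, hcount⟩ :=
      hS.step hB hexp (h := h) (by omega)
    have hU'B2 : U' ⊆ B (H + 2) := hU'B.trans (hBm _ _ (by omega))
    have hl := light2 G M κ hMκ hκ hno R' U' (h + 1) hE' hd (by omega)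
      (fun K hK => hcl K (hK.trans hU'B2)) I'.card hI'm
    have hu : 1 ≤ I.card := Finset.card_pos.2 hS.ne
    -- the growth factor
    have key : κ * ((q + 1) * I.card) ≤ κ * (q * I'.card) := by
      have h1 : M * I.card + 1 ≤ δ + (1 + q * I.card + I.card) + κ * I'.card := by omega
      have h2 : q * (M * I.card + 1) ≤ q * (δ + (1 + q * I.card + I.card) + κ * I'.card) :=
        Nat.mul_le_mul_left _ h1
      have h3 : (κ * (q + 1) + q * (1 + q + δ)) * I.card ≤ (q * M) * I.card :=
        Nat.mul_le_mul_right _ hq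
      have h4 : q * δ * 1 ≤ q * δ * I.card := Nat.mul_le_mul_left _ hu
      nlinarith only [h2, h3, h4]
    have hκ0 : 0 < κ := by omega
    have key2 : (q + 1) * I.card ≤ q * I'.card := Nat.le_of_mul_le_mul_left key hκ0
    have hI'ne : I'.Nonempty := by
      rw [← Finset.card_pos]
      by_contra h0
      have h0' : I'.card = 0 := by omega
      rw [h0', Nat.mul_zero] at key2
      have : 1 ≤ (q + 1) * I.card := Nat.mul_pos (by omega) (by omega)
      omega
    refine ⟨R', U', I', ⟨haR', hR'B, hU'B, hd, hcl', hE', hI'U, hI'i, hI'm, hI'ne⟩, ?_, ?_⟩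
    · rw [hRc]
      have : (q + 1) * I.card = q * I.card + I.card := by ring
      omega
    · calc (q + 1) ^ (h + 1) = (q + 1) * (q + 1) ^ h := by ring
        _ ≤ (q + 1) * (I.card * q ^ h) := Nat.mul_le_mul_left _ hg
        _ = ((q + 1) * I.card) * q ^ h := by ring
        _ ≤ (q * I'.card) * q ^ h := Nat.mul_le_mul_right _ key2
        _ = I'.card * q ^ (h + 1) := by ring

end Vale.Agent.P048.H9
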