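import Vale.Agent.P048.H9.Dbl

set_option linter.all false

/-! Maximal cycles through a clique, long ears. -/

namespace Vale.Agent.P048.H9

open Finset Vale.Agent.P048

variable {V : Type*}

/-- one cut -/
theorem shorten1 (G : SimpleGraph V) (K : Finset V) (hK : Clq G K) (R : List V) (u v : V)
    (hR : IsPath G u v R) (hKR : ∀ w ∈ K, w ∈ R) (τ : ℕ)
    (hk : R.length + τ + 2 ≤ 2 * K.card) :
    ∃ R' : List V, IsPath G u v R' ∧ R'.length + τ = R.length ∧ ∀ w ∈ R', w ∈ R := by
  classical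
  set s := R.length with hs
  set P : Finset ℕ := (Finset.range s).filter (fun i => ∃ w ∈ K, R[i]? = some w) with hP
  have hmem : ∀ i, i ∈ P ↔ ∃ w ∈ K, R[i]? = some w := by
    intro i
    rw [hP, Finset.mem_filter, Finset.mem_range]
    constructor
    · exact fun h => h.2
    · rintro ⟨w, hw, h⟩
      refine ⟨?_, w, hw, h⟩
      by_contra hlt
      rw [List.getElem?_eq_none (by omega)] at h
      cases h
  have hPs : ∀ i ∈ P, i < s := by
    intro i hi
    exact Finset.mem_range.1 (Finset.mem_filter.1 hi).1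
  have hcard : K.card ≤ P.card := by
    have h1 : K.image some ⊆ P.image (fun i => R[i]?) := by
      intro o ho
      obtain ⟨w, hw, rfl⟩ := Finset.mem_image.1 ho
      obtain ⟨i, hi⟩ := List.mem_iff_getElem?.1 (hKR w hw)
      exact Finset.mem_image.2 ⟨i, (hmem i).2 ⟨w, hw, hi⟩, hi⟩
    have h2 := Finset.card_le_card h1
    rw [Finset.card_image_of_injective _ (Option.some_injective _)] at h2
    exact h2.trans Finset.card_image_le
  obtain ⟨i, hi, hj⟩ : ∃ i ∈ P, i + (τ + 1) ∈ P := by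
    by_contra hone
    push Not at hone
    set Q : Finset ℕ := P.image (fun i => i + (τ + 1)) with hQ
    have hQc : Q.card = P.card := Finset.card_image_of_injective _ (fun a b h => by
      simpa using h)
    have hdisj : Disjoint P Q := by
      rw [Finset.disjoint_left]
      intro j hj hjQ
      obtain ⟨i, hi, rfl⟩ := Finset.mem_image.1 hjQ
      exact hone i hi hj
    have hsub : P ∪ Q ⊆ Finset.range (s + (τ + 1)) := by
      intro j hj
      rw [Finset.mem_range]
      rcases Finset.mem_union.1 hj with h | h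
      · have := hPs j h
        omega
      · obtain ⟨i, hi, rfl⟩ := Finset.mem_image.1 h
        have := hPs i hi
        omega
    have hle := Finset.card_le_card hsub
    rw [Finset.card_union_of_disjoint hdisj, hQc, Finset.card_range] at hle
    omega
  obtain ⟨a, ha, hia⟩ := (hmem i).1 hi
  obtain ⟨b, hb, hjb⟩ := (hmem _).1 hj
  have hab : G.Adj a b := by
    refine hK a ha b hb ?_
    intro hab
    have h2 : i = i + (τ + 1) := (List.getElem?_inj (hPs i hi) hR.1.2).1 (by rw [hia, hab, hjb])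
    omega
  refine ⟨_, sh_cut hR (by omega) hia hjb hab, ?_, sh_cut_mem⟩
  have := sh_cut_length (R := R) (i := i) (j := i + (τ + 1)) (by omega) (hPs _ hj)
  omega

/-- a maximal cycle through a clique -/
structure Cyc (G : SimpleGraph V) (W K : Finset V) (M ℓ : ℕ) (x : ℕ → V) : Prop where
  isF : IsF G ℓ x
  one : 1 ≤ ℓ
  le : ℓ ≤ M
  inW : ∀ i, x i ∈ W
  hK : ∀ v ∈ K, ∃ i, x i = v
  mx : ∀ l, GCyc G W K M l → l.length ≤ ℓ

theorem exists_cyc (G : SimpleGraph V) (W K : Finset V) (M : ℕ) (hKW : K ⊆ W) (hK : Clq G K)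
    (hKM : K.card ≤ M) (h2 : 2 ≤ K.card) : ∃ ℓ x, Cyc G W K M ℓ x := by
  classical
  obtain ⟨l, hl, hlmax⟩ := exists_max_gcyc G W K M (clique_gcyc G W K M hKW hK hKM h2)
  have hKl : K.card ≤ l.length := by
    have h1 : K ⊆ l.toFinset := fun v hv => List.mem_toFinset.2 (hl.2.2.1 v hv)
    exact (Finset.card_le_card h1).trans (List.toFinset_card_le _)
  obtain ⟨x, hx, hxl⟩ := IsC.exists_isF G l hl.1 (by omega)
  have hxl' : ∀ i, x i ∈ l := by
    intro i
    rw [← hx.mod i]
    exact (hxl _).2 ⟨i % l.length, Nat.mod_lt _ (by omega), rfl⟩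
  refine ⟨l.length, x, hx, by omega, hl.2.2.2, fun i => hl.2.1 _ (hxl' i), ?_, hlmax⟩
  intro v hv
  obtain ⟨i, _, hi⟩ := (hxl v).1 (hl.2.2.1 v hv)
  exact ⟨i, hi⟩

/-- the set of vertices of the cycle -/
theorem Cyc.set [DecidableEq V] {G : SimpleGraph V} {W K : Finset V} {M ℓ : ℕ} {x : ℕ → V}
    (hx : Cyc G W K M ℓ x) : ((range ℓ).image x).card = ℓ ∧ (∀ t, x t ∈ (range ℓ).image x) := by
  constructor
  · rw [Finset.card_image_of_injOn, Finset.card_range]
    intro a ha b hb hab
    rw [Finset.mem_coe, Finset.mem_range] at ha hb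
    exact hx.isF.2.2 a b ha hb hab
  · intro t
    rw [Finset.mem_image]
    exact ⟨t % ℓ, Finset.mem_range.2 (Nat.mod_lt _ hx.one), hx.isF.mod t⟩

/-- no ears between predecessors of clique vertices -/
theorem Cyc.no_ear {G : SimpleGraph V} {W K : Finset V} {M ℓ : ℕ} {x : ℕ → V}
    (hx : Cyc G W K M ℓ x) (hno : ¬ HasC G (M + 1)) (hK : Clq G K) (i j : ℕ) (hi : i < ℓ)
    (hj : j < ℓ) (hij : i ≠ j) (hiK : x (i + 1) ∈ K) (hjK : x (j + 1) ∈ K)
    (u v : V) (Y : List V) (hY : IsPath G u v Y) (hYW : ∀ w ∈ Y, w ∈ W)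
    (hYo : ∀ w ∈ Y, ∀ t, x t ≠ w)
    (hxu : G.Adj (x i) u) (hvx : G.Adj v (x j)) (h4 : M + Y.length + 1 ≤ 2 * K.card) : False := by
  classical
  have hℓM := hx.le
  have main : ∀ i j : ℕ, i < j → j < ℓ → x (i + 1) ∈ K →
      x (j + 1) ∈ K → ∀ u v : V, ∀ Y : List V, IsPath G u v Y → (∀ w ∈ Y, w ∈ W) →
      (∀ w ∈ Y, ∀ t, x t ≠ w) →
      G.Adj (x i) u → G.Adj v (x j) → M + Y.length + 1 ≤ 2 * K.card → False := by
    intro i j hij hj hiK hjK u v Y hY hYW hYo hxu hvx h4
    have h3 : G.Adj (x (i + 1)) (x (j + 1)) := by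
      apply hK _ hiK _ hjK
      intro h
      have := hx.isF.inj (i := 1) (s := i) (t := j) (by omega) (by omega)
        (by rw [Nat.add_comm 1 i, Nat.add_comm 1 j]; exact h)
      omega
    obtain ⟨R, hR, hlen, hmem, hmem2⟩ := ce_path hx.isF i j hij (by omega) h3
    have hYpos := hY.length_pos
    have hKR : ∀ w ∈ K, w ∈ R := by
      intro w hw
      obtain ⟨t, ht⟩ := hx.hK w hw
      rw [← ht]
      exact hmem t
    have hd : ∀ w ∈ Y, w ∉ R := by
      intro w hw hw2
      obtain ⟨t, ht⟩ := hmem2 w hw2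
      exact hYo w hw t ht
    rcases Nat.lt_or_ge M (Y.length + ℓ) with hlt | hle
    · obtain ⟨R', hR', hlen', hsub⟩ := shorten1 G K hK R _ _ hR hKR
        (Y.length + ℓ - (M + 1)) (by omega)
      apply hno
      refine ⟨Y ++ R', by rw [List.length_append]; omega, ?_⟩
      exact hY.close hR' (fun w hw hw2 => hd w hw (hsub w hw2)) hvx hxu
    · have := hx.mx (Y ++ R) ⟨hY.close hR hd hvx hxu, ?_, ?_, ?_⟩
      · rw [List.length_append] at this
        omega
      · intro w hw
        rcases List.mem_append.1 hw with h | h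
        · exact hYW w h
        · obtain ⟨t, ht⟩ := hmem2 w h
          rw [← ht]
          exact hx.inW t
      · intro w hw
        exact List.mem_append_right _ (hKR w hw)
      · rw [List.length_append]
        omega
  rcases Nat.lt_or_gt_of_ne hij with h | h
  · exact main i j h hj hiK hjK u v Y hY hYW hYo hxu hvx h4
  · exact main j i h hi hjK hiK v u Y.reverse hY.reverse
      (fun w hw => hYW w (List.mem_reverse.1 hw)) (fun w hw => hYo w (List.mem_reverse.1 hw))
      hvx.symm hxu.symm (by rw [List.length_reverse]; exact h4)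

/-- outside neighbours -/
theorem Cyc.out {G : SimpleGraph V} {W K : Finset V} {M ℓ : ℕ} {x : ℕ → V}
    (hx : Cyc G W K M ℓ x) (hdeg : ∀ v ∈ W, M ≤ dg G W v) (i : ℕ) :
    ∃ y ∈ W, (∀ t, x t ≠ y) ∧ G.Adj (x i) y := by
  classical
  by_contra hcon
  push Not at hcon
  have h1 := hdeg (x i) (hx.inW i)
  rw [dg_eq_filter] at h1
  obtain ⟨hSc, hSm⟩ := hx.set
  have hsub : W.filter (G.Adj (x i)) ⊆ ((range ℓ).image x).erase (x i) := by
    intro w hw
    rw [Finset.mem_filter] at hw
    rw [Finset.mem_erase]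
    refine ⟨?_, ?_⟩
    · rintro rfl
      exact G.loopless.irrefl _ hw.2
    · by_contra hwS
      refine hcon w hw.1 (fun t ht => hwS (ht ▸ hSm t)) hw.2
  have h2 := Finset.card_le_card hsub
  rw [Finset.card_erase_of_mem (hSm i), hSc] at h2
  have := hx.le
  have := hx.one
  omega

/-- the predecessors of the clique vertices -/
theorem Cyc.pred_card [DecidableEq V] {G : SimpleGraph V} {W K : Finset V} {M ℓ : ℕ} {x : ℕ → V}
    (hx : Cyc G W K M ℓ x) :
    K.card ≤ (((range ℓ).filter (fun i => x (i + 1) ∈ K)).image x).card := by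
  have hℓ1 := hx.one
  have h2 : K ⊆ ((range ℓ).filter (fun i => x (i + 1) ∈ K)).image (fun i => x (i + 1)) := by
    intro v hv
    obtain ⟨i, hi⟩ := hx.hK v hv
    have h3 : x ((i + (ℓ - 1)) % ℓ + 1) = v := by
      rw [hx.isF.mod_add, show i + (ℓ - 1) + 1 = i + ℓ by omega, hx.isF.2.1, hi]
    rw [Finset.mem_image]
    refine ⟨(i + (ℓ - 1)) % ℓ, ?_, h3⟩
    rw [Finset.mem_filter, Finset.mem_range, h3]
    exact ⟨Nat.mod_lt _ hℓ1, hv⟩
  have h3 : (((range ℓ).filter (fun i => x (i + 1) ∈ K)).image x).card =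
      ((range ℓ).filter (fun i => x (i + 1) ∈ K)).card := by
    rw [Finset.card_image_of_injOn]
    intro a ha b hb hab
    rw [Finset.mem_coe, Finset.mem_filter, Finset.mem_range] at ha hb
    exact hx.isF.2.2 a b ha.1 hb.1 hab
  rw [h3]
  exact (Finset.card_le_card h2).trans Finset.card_image_le

end Vale.Agent.P048.H9
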