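import Vale.Agent.P048.H9.Bfs

set_option linter.all false

/-! The doubling lemma with its full strength: an independent set with `2 ω - 1` vertices. -/

namespace Vale.Agent.P048.H9

open Finset Vale.Agent.P048

variable {V : Type*}

theorem dbl_top (G : SimpleGraph V) (W K : Finset V) (M : ℕ) (hM : 7 ≤ M)
    (hno : ¬ HasC G (M + 1)) (hdeg : ∀ v ∈ W, M ≤ dg G W v) (hKW : K ⊆ W) (hK : Clq G K)
    (hkM : K.card = M) : ∃ J ⊆ W, Ind G J ∧ 2 * K.card ≤ J.card + 1 := by
  classical
  set O : Finset V := W \ K with hO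
  have hOmem : ∀ w, w ∈ O ↔ w ∈ W ∧ w ∉ K := by
    intro w
    rw [hO, Finset.mem_sdiff]
  have hear : ∀ a ∈ K, ∀ b ∈ K, a ≠ b → ∀ u v : V, ∀ Y : List V, IsPath G u v Y →
      (∀ w ∈ Y, w ∈ O) → G.Adj a u → G.Adj v b → Y.length ≤ 6 → False := by
    intro a ha b hb hab u v Y hY hYO hau hvb hlen
    have hpos := hY.length_pos
    obtain ⟨R, hR, hRl, hRK⟩ := clique_path G K hK b a hb ha hab.symm (M + 1 - Y.length)
      (by omega) (by omega)
    apply hno
    refine ⟨Y ++ R, by rw [List.length_append]; omega, ?_⟩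
    refine hY.close hR ?_ hvb hau
    intro w hw hw2
    exact ((hOmem w).1 (hYO w hw)).2 (hRK w hw2)
  have hnoK : ∀ K' : Finset V, Clq G K' → K'.card ≤ M := by
    intro K' hK'
    by_contra hlt
    push Not at hlt
    exact hno (clique_hasC G K' hK' (M + 1) (by omega) hlt)
  have hone : ∀ a ∈ K, ∃ y ∈ O, G.Adj a y := by
    intro a ha
    by_contra hcon
    push Not at hcon
    have h1 := hdeg a (hKW ha)
    rw [dg_eq_filter] at h1
    have hsub : W.filter (G.Adj a) ⊆ K.erase a := by
      intro w hw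
      rw [Finset.mem_filter] at hw
      rw [Finset.mem_erase]
      refine ⟨?_, ?_⟩
      · rintro rfl
        exact G.loopless.irrefl _ hw.2
      · by_contra hwK
        exact hcon w ((hOmem w).2 ⟨hw.1, hwK⟩) hw.2
    have h2 := Finset.card_le_card hsub
    rw [Finset.card_erase_of_mem ha] at h2
    omega
  have hbad : ∀ a ∈ K,
      ¬ ∀ w w', Reach G O a 3 w → Reach G O a 3 w' → w ≠ w' → G.Adj w w' := by
    intro a ha hcl
    obtain ⟨y, hy, hay⟩ := hone a ha
    set B : Finset V := O.filter (fun w => Reach G O a 3 w) with hB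
    have hBmem : ∀ w, w ∈ B ↔ Reach G O a 3 w := by
      intro w
      rw [hB, Finset.mem_filter]
      exact ⟨fun h => h.2, fun h => ⟨h.1, h⟩⟩
    have hBW : ∀ w ∈ B, w ∈ W := fun w hw => ((hOmem w).1 ((hBmem w).1 hw).1).1
    have hBcl : Clq G B := fun u hu v hv huv =>
      hcl u v ((hBmem u).1 hu) ((hBmem v).1 hv) huv
    have hy1 : Reach G O a 1 y := Reach.of_adj le_rfl hy hay
    have hyB : y ∈ B := (hBmem y).2 (hy1.mono (by omega))
    -- neighbours of y
    have hBc : M ≤ B.card := by
      have h1 := hdeg y ((hOmem y).1 hy).1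
      rw [dg_eq_filter] at h1
      have hsub : W.filter (G.Adj y) ⊆ insert a (B.erase y) := by
        intro w hw
        rw [Finset.mem_filter] at hw
        rw [Finset.mem_insert, Finset.mem_erase]
        by_cases hwa : w = a
        · exact Or.inl hwa
        · right
          refine ⟨?_, ?_⟩
          · rintro rfl
            exact G.loopless.irrefl _ hw.2
          · by_cases hwK : w ∈ K
            · exfalso
              refine hear a ha w hwK (fun h => hwa h.symm) y y [y]
                ⟨⟨by simp, by simp⟩, rfl, rfl⟩ ?_ hay hw.2 (by simp)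
              intro z hz
              rw [List.mem_singleton] at hz
              rw [hz]
              exact hy
            · exact (hBmem w).2 ((hy1.step ((hOmem w).2 ⟨hw.1, hwK⟩) hw.2).mono (by omega))
      have h2 := (Finset.card_le_card hsub).trans (Finset.card_insert_le _ _)
      rw [Finset.card_erase_of_mem hyB] at h2
      have h3 : 0 < B.card := Finset.card_pos.2 ⟨y, hyB⟩
      omega
    have haB : a ∉ B := by
      intro h
      exact ((hOmem a).1 ((hBmem a).1 h).1).2 ha
    obtain ⟨w, hwB, haw⟩ : ∃ w ∈ B, ¬ G.Adj a w := by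
      by_contra hcon
      push Not at hcon
      have h1 := hnoK (insert a B) (by
        intro u hu v hv huv
        rw [Finset.mem_insert] at hu hv
        rcases hu with rfl | hu
        · rcases hv with rfl | hv
          · exact absurd rfl huv
          · exact hcon v hv
        · rcases hv with rfl | hv
          · exact (hcon u hu).symm
          · exact hBcl u hu v hv huv)
      rw [Finset.card_insert_of_notMem haB] at h1
      omega
    have hyw : y ≠ w := by
      rintro rfl
      exact haw hay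
    have hadj : G.Adj y w := hBcl y hyB w hwB hyw
    have hwO : w ∈ O := ((hBmem w).1 hwB).1
    obtain ⟨z, hz, hzB⟩ : ∃ z ∈ W.filter (G.Adj w), z ∉ B := by
      by_contra hcon
      push Not at hcon
      have h1 := hdeg w (hBW w hwB)
      rw [dg_eq_filter] at h1
      have hsub : W.filter (G.Adj w) ⊆ B.erase w := by
        intro z hz
        rw [Finset.mem_erase]
        refine ⟨?_, hcon z hz⟩
        rintro rfl
        exact G.loopless.irrefl _ (Finset.mem_filter.1 hz).2
      have h2 := Finset.card_le_card hsub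
      rw [Finset.card_erase_of_mem hwB] at h2
      have h3 := hnoK B hBcl
      omega
    rw [Finset.mem_filter] at hz
    by_cases hzK : z ∈ K
    · have hza : a ≠ z := by
        rintro rfl
        exact haw hz.2.symm
      refine hear a ha z hzK hza y w [y, w] ⟨⟨?_, ?_⟩, rfl, rfl⟩ ?_ hay hz.2 (by simp)
      · rw [List.isChain_cons_cons]
        exact ⟨hadj, by simp⟩
      · simpa using hyw
      · intro p hp
        simp only [List.mem_cons, List.not_mem_nil, or_false] at hp
        rcases hp with rfl | rfl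
        · exact hy
        · exact hwO
    · exact hzB ((hBmem z).2 ((hy1.step hwO hadj).step ((hOmem z).2 ⟨hz.1, hzK⟩) hz.2))
  obtain ⟨J, hJ, hJi, hJc⟩ := assemble G O K 3 (by
    intro a ha b hb hab w w' hw hw'
    have key : ¬ (w = w' ∨ G.Adj w w') := by
      intro hcon
      obtain ⟨u, v, Y, hY, hYl, hYO, h1, h2⟩ := hw.join hw' hcon
      exact hear a ha b hb hab u v Y hY hYO h1 h2 (by omega)
    rw [not_or] at key
    exact key) (by
    intro a ha
    obtain ⟨y, hy, hay⟩ := hone a ha
    exact ⟨y, Reach.of_adj (by omega) hy hay⟩) (by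
    intro a ha b hb hba hbb
    exact absurd hba (hbad a ha))
  exact ⟨J, fun w hw => ((hOmem w).1 (hJ hw)).1, hJi, hJc⟩

theorem dbl (G : SimpleGraph V) (W K : Finset V) (M : ℕ) (hM : 7 ≤ M)
    (hno : ¬ HasC G (M + 1)) (hdeg : ∀ v ∈ W, M ≤ dg G W v) (hKW : K ⊆ W) (hK : Clq G K)
    (hmax : ∀ K' ⊆ W, Clq G K' → K'.card ≤ K.card) (hk : M + 3 ≤ 2 * K.card) :
    ∃ J ⊆ W, Ind G J ∧ 2 * K.card ≤ J.card + 1 := by
  classical
  have hKM : K.card ≤ M := by
    by_contra hlt
    push Not at hlt
    exact hno (clique_hasC G K hK (M + 1) (by omega) hlt)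
  rcases Nat.eq_or_lt_of_le hKM with hkM | hkM
  · exact dbl_top G W K M hM hno hdeg hKW hK hkM
  obtain ⟨l, hl, hlmax⟩ := exists_max_gcyc G W K M
    (clique_gcyc G W K M hKW hK hKM (by omega))
  have hKl : K.card ≤ l.length := by
    have h1 : K ⊆ l.toFinset := fun v hv => List.mem_toFinset.2 (hl.2.2.1 v hv)
    exact (Finset.card_le_card h1).trans (List.toFinset_card_le _)
  obtain ⟨x, hx, hxl⟩ := IsC.exists_isF G l hl.1 (by omega)
  set ℓ := l.length with hℓ
  have hℓ1 : 1 ≤ ℓ := by omega
  have hℓM : ℓ ≤ M := hl.2.2.2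
  have hxl' : ∀ i, x i ∈ l := by
    intro i
    rw [← hx.mod i]
    exact (hxl _).2 ⟨i % ℓ, Nat.mod_lt _ hℓ1, rfl⟩
  have hxW : ∀ i, x i ∈ W := fun i => hl.2.1 _ (hxl' i)
  have hKx : ∀ v ∈ K, ∃ i, x i = v := by
    intro v hv
    obtain ⟨i, _, hi⟩ := (hxl v).1 (hl.2.2.1 v hv)
    exact ⟨i, hi⟩
  set O : Finset V := W.filter (fun w => ∀ t, x t ≠ w) with hO
  have hOmem : ∀ w, w ∈ O ↔ w ∈ W ∧ ∀ t, x t ≠ w := by
    intro w
    rw [hO, Finset.mem_filter]
  set s : Finset V := ((range ℓ).filter (fun i => x (i + 1) ∈ K)).image x with hs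
  have hsc : K.card ≤ s.card := by
    have h2 : K ⊆ ((range ℓ).filter (fun i => x (i + 1) ∈ K)).image (fun i => x (i + 1)) := by
      intro v hv
      obtain ⟨i, hi⟩ := hKx v hv
      have h3 : x ((i + (ℓ - 1)) % ℓ + 1) = v := by
        rw [hx.mod_add, show i + (ℓ - 1) + 1 = i + ℓ by omega, hx.2.1, hi]
      rw [Finset.mem_image]
      refine ⟨(i + (ℓ - 1)) % ℓ, ?_, h3⟩
      rw [Finset.mem_filter, Finset.mem_range, h3]
      exact ⟨Nat.mod_lt _ hℓ1, hv⟩
    have h3 : s.card = ((range ℓ).filter (fun i => x (i + 1) ∈ K)).card := by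
      rw [hs, Finset.card_image_of_injOn]
      intro a ha b hb hab
      rw [Finset.mem_coe, Finset.mem_filter, Finset.mem_range] at ha hb
      exact hx.2.2 a b ha.1 hb.1 hab
    rw [h3]
    exact (Finset.card_le_card h2).trans Finset.card_image_le
  have hsmem : ∀ a ∈ s, ∃ i, i < ℓ ∧ x (i + 1) ∈ K ∧ x i = a := by
    intro a ha
    rw [hs, Finset.mem_image] at ha
    obtain ⟨i, hi, hia⟩ := ha
    rw [Finset.mem_filter, Finset.mem_range] at hi
    exact ⟨i, hi.1, hi.2, hia⟩
  have hear : ∀ i j, i < ℓ → j < ℓ → i ≠ j → x (i + 1) ∈ K → x (j + 1) ∈ K →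
      ∀ u v : V, ∀ Y : List V, IsPath G u v Y → (∀ w ∈ Y, w ∈ O) → G.Adj (x i) u →
      G.Adj v (x j) → Y.length ≤ 4 → False := by
    intro i j hi hj hij hiK hjK u v Y hY hYO hxu hvx h4
    exact no_ear4 G W K M hno hK ℓ x hx hℓM hxW hKx (by omega) hk hlmax i j hi hj hij hiK hjK
      u v Y hY (fun w hw => ((hOmem w).1 (hYO w hw)).1)
      (fun w hw => ((hOmem w).1 (hYO w hw)).2) hxu hvx h4
  have hear1 : ∀ i j, i < ℓ → j < ℓ → i ≠ j → x (i + 1) ∈ K → x (j + 1) ∈ K → ∀ y ∈ O,
      G.Adj (x i) y → ¬ G.Adj y (x j) := by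
    intro i j hi hj hij hiK hjK y hy h1 h2
    exact hear i j hi hj hij hiK hjK y y [y] ⟨⟨by simp, by simp⟩, by simp, by simp⟩
      (by
        intro w hw
        rw [List.mem_singleton] at hw
        rw [hw]; exact hy) h1 h2 (by simp)
  obtain ⟨J, hJ, hJi, hJc⟩ := assemble G O s 2 (by
    intro a ha b hb hab w w' hw hw'
    obtain ⟨i, hi, hiK, rfl⟩ := hsmem a ha
    obtain ⟨j, hj, hjK, rfl⟩ := hsmem b hb
    have hij : i ≠ j := by
      rintro rfl
      exact hab rfl
    have key : ¬ (w = w' ∨ G.Adj w w') := by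
      intro hcon
      obtain ⟨u, v, Y, hY, hYl, hYO, h1, h2⟩ := hw.join hw' hcon
      exact hear i j hi hj hij hiK hjK u v Y hY hYO h1 h2 (by omega)
    rw [not_or] at key
    exact key) (by
    intro a ha
    obtain ⟨i, hi, hiK, rfl⟩ := hsmem a ha
    have hxi := hdeg (x i) (hxW i)
    rw [dg_eq_filter] at hxi
    by_contra hcon
    push Not at hcon
    have hsub : W.filter (G.Adj (x i)) ⊆ l.toFinset.erase (x i) := by
      intro w hw
      rw [Finset.mem_filter] at hw
      rw [Finset.mem_erase, List.mem_toFinset]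
      refine ⟨?_, ?_⟩
      · rintro rfl
        exact G.loopless.irrefl _ hw.2
      · by_contra hwl
        refine hcon w (Reach.of_adj (by omega) ?_ hw.2)
        rw [hOmem]
        refine ⟨hw.1, ?_⟩
        intro t ht
        exact hwl (ht ▸ hxl' t)
    have h2 := Finset.card_le_card hsub
    rw [Finset.card_erase_of_mem (List.mem_toFinset.2 (hxl' i)),
      List.toFinset_card_of_nodup hl.1.2.1] at h2
    omega) (by
    intro a ha b hb hba hbb
    obtain ⟨i, hi, hiK, rfl⟩ := hsmem a ha
    obtain ⟨j, hj, hjK, rfl⟩ := hsmem b hb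
    obtain ⟨hℓeq, h1⟩ := bad_struct G W K M hno hK hKW hdeg hmax ℓ x hx hℓ1 hℓM hxW hKx O
      hOmem hear1 i hi hiK hba
    obtain ⟨_, h2⟩ := bad_struct G W K M hno hK hKW hdeg hmax ℓ x hx hℓ1 hℓM hxW hKx O
      hOmem hear1 j hj hjK hbb
    by_contra hne
    -- a vertex of the cycle outside K
    obtain ⟨p0, hp0⟩ : ∃ p, x p ∉ K := by
      by_contra hcon
      push Not at hcon
      have h3 : l.toFinset ⊆ K := by
        intro w hw
        rw [List.mem_toFinset] at hw
        obtain ⟨t, _, ht⟩ := (hxl w).1 hw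
        rw [← ht]
        exact hcon t
      have h4 := Finset.card_le_card h3
      rw [List.toFinset_card_of_nodup hl.1.2.1] at h4
      omega
    have hstep : ∀ p, x p ∉ K → x (p + 2) ∉ K := by
      intro p hp
      rcases h1 p hp with h3 | h3
      · exact h3
      · rcases h2 p hp with h4 | h4
        · exact h4
        · exact absurd (h3.symm.trans h4) hne
    have hall : ∀ n, x (p0 + 2 * n) ∉ K := by
      intro n
      induction n with
      | zero => simpa using hp0
      | succ n ih =>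
        rw [show p0 + 2 * (n + 1) = p0 + 2 * n + 2 by ring]
        exact hstep _ ih
    have hE := card_E hx hℓ1 K hKx
    obtain ⟨q, hq⟩ := Finset.card_pos.1
      (show 0 < ((range ℓ).filter (fun i => x i ∈ K ∧ x (i + 1) ∈ K)).card by omega)
    rw [Finset.mem_filter] at hq
    have hper : ∀ t, x (t + ℓ * p0) = x t := by
      intro t
      rw [← hx.mod, Nat.add_mul_mod_self_left, hx.mod]
    have hge : p0 ≤ ℓ * p0 := Nat.le_mul_of_pos_left _ hℓ1
    rcases Nat.even_or_odd' (q + ℓ * p0 - p0) with ⟨n, hn | hn⟩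
    · have h3 : q + ℓ * p0 = p0 + 2 * n := by omega
      apply hall n
      rw [← h3, hper]
      exact hq.2.1
    · have h3 : q + 1 + ℓ * p0 = p0 + 2 * (n + 1) := by omega
      apply hall (n + 1)
      rw [← h3, hper]
      exact hq.2.2)
  exact ⟨J, fun w hw => ((hOmem w).1 (hJ hw)).1, hJi, by (clear * - hsc hJc; omega)⟩


end Vale.Agent.P048.H9
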