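import Vale.Agent.P048.H9.Bfs2

set_option linter.all false

/-! The recursion: independent sets of polynomial size of any degree in balls. -/

namespace Vale.Agent.P048.H9

open Finset Vale.Agent.P048

variable {V : Type*}

/-- reach sets which avoid `Z = insert a X` stay inside the outer balls -/
theorem reach_in_ball [DecidableEq V] {G : SimpleGraph V} {W X O : Finset V} {B : ℕ → Finset V}
    {a y : V} {H t ρ : ℕ} (hB : Balls G W X B a H) (hH : t + 1 + ρ ≤ H) (hOW : O ⊆ W)
    (hyB : y ∈ B (t + 2)) (hya : y ≠ a)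
    (hgood : ∀ w, Reach G O y ρ w → w ≠ a ∧ w ∉ X) :
    ∀ w, Reach G O y ρ w → w ∈ B (t + 2 + ρ) := by
  have hBm : ∀ i j, i ≤ j → B i ⊆ B j := by
    intro i j hij
    induction hij with
    | refl => exact subset_rfl
    | step _ ih => exact ih.trans (hB.mono _)
  have key : ∀ {u w : V} (p : (GR G O).Walk u w) (e : ℕ), Reach G O y e u → u ∈ B (t + 2 + e) →
      e + p.length ≤ ρ → w ∈ B (t + 2 + (e + p.length)) := by
    intro u w p
    induction p with
    | nil =>
      intro e _ hu _
      simpa using hu
    | @cons u v w h q ih =>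
      intro e hre hu hlen
      rw [SimpleGraph.Walk.length_cons] at hlen ⊢
      obtain ⟨huO, hvO, huv⟩ := h
      have hrv : Reach G O y (e + 1) v := hre.step hvO huv
      have hv := hgood v (hrv.mono (by omega))
      have hu2 := hgood u (hre.mono (by omega))
      have h1 : v ∈ B (t + 2 + (e + 1)) := by
        rcases hB.s2 (t + 1 + e) (by omega) u (by
          rw [show t + 1 + e + 1 = t + 2 + e by omega]
          exact hu) hu2.1 v (hOW hvO) huv with h2 | h2
        · rw [show t + 1 + e + 2 = t + 2 + (e + 1) by omega] at h2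
          exact h2
        · exact absurd h2 hv.2
      have h3 := ih (e + 1) hrv h1 (by omega)
      rw [show e + (q.length + 1) = e + 1 + q.length by omega]
      exact h3
  intro w hw
  have hw' := hw
  obtain ⟨hwO, u, huO, hyu, p, hp⟩ := hw
  have hru : Reach G O y 1 u := Reach.of_adj le_rfl huO hyu
  have hu := hgood u (hru.mono (by omega))
  have h1 : u ∈ B (t + 2 + 1) := by
    rcases hB.s2 (t + 1) (by omega) y hyB hya u (hOW huO) hyu with h2 | h2
    · exact h2
    · exact absurd h2 hu.2
  have h2 := key p 1 hru h1 (by omega)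
  exact hBm _ _ (by omega) h2

/-- the recursion -/
theorem deep (G : SimpleGraph V) (W : Finset V) (M c q t g D : ℕ) (hM : 7 ≤ M)
    (hno : ¬ HasC G (M + 1)) (hexp : Expd G W M) (hq1 : 1 ≤ q) (ht : 1 ≤ t)
    (ht2 : 2 * (t + 1) ≤ M) (hc : M + q * (q + 1) ≤ (q + 1) * c)
    (hg : g + 2 * D * c + 1 ≤ M + c) (hg1 : 1 ≤ g)
    (hr : 2 * ((D - 1) * (t + 2) + 1) + 2 + 2 * (D * c) ≤ M)
    (hgr : g ^ D * q ^ t ≤ (q + 1) ^ t) :
    ∀ j e, j + e ≤ D → ∀ (X : Finset V) (B : ℕ → Finset V) (a : V),
      Balls G W X B a (j * (t + 2) + 1) → X.card ≤ e * c → (∃ w ∈ B 1, G.Adj a w) →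
      ∃ I ⊆ B (j * (t + 2) + 1), a ∉ I ∧ Ind G I ∧ g ^ j ≤ I.card := by
  classical
  have hdeg : ∀ v ∈ W, M ≤ dg G W v := fun v hv => hexp.deg hv
  intro j
  induction j with
  | zero =>
    intro e _ X B a hB hX ⟨w, hw, haw⟩
    refine ⟨{w}, ?_, ?_, ?_, ?_⟩
    · rw [Finset.singleton_subset_iff, Nat.zero_mul, Nat.zero_add]
      exact hw
    · rw [Finset.mem_singleton]
      exact haw.ne
    · intro p hp q' hq'
      rw [Finset.mem_singleton] at hp hq'
      rw [hp, hq']
      exact G.loopless.irrefl _
    · rw [pow_zero, Finset.card_singleton]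
  | succ j ih =>
    intro e hje X B a hB hX hne
    have hBm : ∀ i j, i ≤ j → B i ⊆ B j := by
      intro i j hij
      induction hij with
      | refl => exact subset_rfl
      | step _ ih => exact ih.trans (hB.mono _)
    have hjD : j ≤ D - 1 := by omega
    have hρ : j * (t + 2) ≤ (D - 1) * (t + 2) := Nat.mul_le_mul_right _ hjD
    have hec : (e + 1) * c ≤ D * c := Nat.mul_le_mul_right _ (by omega)
    obtain ⟨κ, hκ⟩ : ∃ κ, κ + (e + 1) * c = M := ⟨M - (e + 1) * c, by omega⟩
    have hec1 : (e + 1) * c = e * c + c := by ring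
    have hc1 : 1 ≤ c := by
      rcases Nat.eq_zero_or_pos c with h | h
      · rw [h, Nat.mul_zero] at hc
        omega
      · exact h
    have hDc : 2 * D * c = 2 * (D * c) := by ring
    have hρ1 : (j + 1) * (t + 2) = j * (t + 2) + (t + 2) := by ring
    by_cases hcl : ∀ K ⊆ B (t - 1 + 2), Clq G K → K.card ≤ κ
    · -- growth
      have hB' : Balls G W X B a (t - 1) :=
        ⟨hB.a0, hB.mono, hB.s1, fun h hh => hB.s2 h (by omega), hB.s3⟩
      obtain ⟨R, U, I, hSt, -, hgI⟩ := growth2 hB' (κ := κ) (q := q) (δ := e * c) hexp hno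
        (by omega) (by omega) (by omega) hX (by
          have h1 : κ * (q + 1) = q * κ + κ := by ring
          have h2 : q * (1 + q + e * c) = q * (e * c) + q * (q + 1) := by ring
          have h3 : q * M = q * κ + q * (e * c) + q * c := by rw [← hκ, hec1]; ring
          have h4 : (q + 1) * c = q * c + c := by ring
          rw [h1, h2, h3]
          omega) hq1 hcl hne t (by omega)
      refine ⟨I, (hSt.IU.trans hSt.UB).trans (hBm _ _ (by omega)), ?_, hSt.ind, ?_⟩
      · intro h
        exact Finset.disjoint_left.1 hSt.RU hSt.haR (hSt.IU h)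
      · have h1 : g ^ (j + 1) * q ^ t ≤ I.card * q ^ t := by
          refine le_trans ?_ hgI
          refine le_trans ?_ hgr
          exact Nat.mul_le_mul_right _ (Nat.pow_le_pow_right hg1 (by omega))
        exact Nat.le_of_mul_le_mul_right h1 (Nat.pow_pos (by omega))
    · -- a large clique
      push Not at hcl
      obtain ⟨K, hKB, hK, hKc⟩ := hcl
      rw [show t - 1 + 2 = t + 1 by omega] at hKB
      have hLc0 : κ ≤ (K.erase a).card := by
        have := Finset.pred_card_le_card_erase (s := K) (a := a)
        omega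
      obtain ⟨L, hL⟩ : ∃ L, L = K.erase a := ⟨_, rfl⟩
      rw [← hL] at hLc0
      have hLK : L ⊆ K := by rw [hL]; exact Finset.erase_subset _ _
      have hLcl : Clq G L := fun u hu v hv huv => hK u (hLK hu) v (hLK hv) huv
      have hLa : ∀ v ∈ L, v ≠ a := fun v hv => Finset.ne_of_mem_erase (hL ▸ hv)
      have hLB : L ⊆ B (t + 1) := hLK.trans hKB
      have hLW : L ⊆ W := fun v hv => hB.s3 _ v (hLB hv) (hLa v hv)
      have hLM : L.card ≤ M := by
        by_contra hlt
        push Not at hlt
        exact hno (clique_hasC G L hLcl (M + 1) (by omega) hlt)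
      obtain ⟨ℓ, x, hx⟩ := exists_cyc G W L M hLW hLcl hLM (by omega)
      set O : Finset V := W.filter (fun w => ∀ t, x t ≠ w) with hO
      have hOmem : ∀ w, w ∈ O ↔ w ∈ W ∧ ∀ t, x t ≠ w := by
        intro w
        rw [hO, Finset.mem_filter]
      have hOW : O ⊆ W := Finset.filter_subset _ _
      set S : Finset V := (range ℓ).image x with hS
      set s : Finset V := ((range ℓ).filter (fun i => x (i + 1) ∈ L)).image x with hs
      have hsc : L.card ≤ s.card := hx.pred_card
      have hsS : s ⊆ S := Finset.image_subset_image (Finset.filter_subset _ _)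
      have hSc : S.card = ℓ := hx.set.1
      have hXc : (S \ s).card ≤ (e + 1) * c := by
        have := Finset.card_sdiff_add_card_eq_card hsS
        have := hx.le
        omega
      have hsm : ∀ y ∈ s, ∃ i, i < ℓ ∧ x (i + 1) ∈ L ∧ x i = y := by
        intro y hy
        rw [hs, Finset.mem_image] at hy
        obtain ⟨i, hi, hiy⟩ := hy
        rw [Finset.mem_filter, Finset.mem_range] at hi
        exact ⟨i, hi.1, hi.2, hiy⟩
      -- the radius
      obtain ⟨ρ, hρdef⟩ : ∃ ρ, ρ = j * (t + 2) + 1 := ⟨_, rfl⟩
      -- separation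
      have hsep : ∀ y ∈ s, ∀ y' ∈ s, y ≠ y' → ∀ w w', Reach G O y ρ w → Reach G O y' ρ w' →
          w ≠ w' ∧ ¬ G.Adj w w' := by
        intro y hy y' hy' hne w w' hw hw'
        obtain ⟨i, hi, hiK, rfl⟩ := hsm y hy
        obtain ⟨i', hi', hiK', rfl⟩ := hsm y' hy'
        have hij : i ≠ i' := by
          rintro rfl
          exact hne rfl
        have key : ¬ (w = w' ∨ G.Adj w w') := by
          intro hcon
          obtain ⟨u, v, Y, hY, hYl, hYO, h1, h2⟩ := hw.join hw' hcon
          exact hx.no_ear hno hLcl i i' hi hi' hij hiK hiK' u v Y hY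
            (fun w hw => ((hOmem w).1 (hYO w hw)).1) (fun w hw => ((hOmem w).1 (hYO w hw)).2) h1 h2
            (by omega)
        rw [not_or] at key
        exact key
      -- bad vertices
      set Z : Finset V := insert a X with hZ
      set bad : Finset V := s.filter (fun y => y ∈ Z ∨ ∃ z ∈ Z, Reach G O y ρ z) with hbad
      have hbadc : bad.card ≤ Z.card := by
        have hex : ∀ y, ∃ z, y ∈ bad → z ∈ Z ∧ (z = y ∨ Reach G O y ρ z) := by
          intro y
          by_cases hy : y ∈ bad
          · rcases (Finset.mem_filter.1 hy).2 with h | ⟨z, hz, hzr⟩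
            · exact ⟨y, fun _ => ⟨h, Or.inl rfl⟩⟩
            · exact ⟨z, fun _ => ⟨hz, Or.inr hzr⟩⟩
          · exact ⟨y, fun h => absurd h hy⟩
        choose z hz using hex
        have hbs : ∀ y ∈ bad, y ∈ s := fun y hy => (Finset.mem_filter.1 hy).1
        refine Finset.card_le_card_of_injOn z (fun y hy => (hz y hy).1) ?_
        intro y hy y' hy' hyy
        by_contra hne
        have hcy : ∀ y ∈ s, y ∉ O := by
          intro y hy hyO
          obtain ⟨i, _, _, rfl⟩ := hsm y hy
          exact ((hOmem _).1 hyO).2 i rfl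
        rcases (hz y hy).2 with h1 | h1 <;> rcases (hz y' hy').2 with h2 | h2
        · exact hne (by rw [← h1, ← h2, hyy])
        · rw [← hyy, h1] at h2
          exact hcy y (hbs y hy) h2.1
        · rw [hyy, h2] at h1
          exact hcy y' (hbs y' hy') h1.1
        · rw [← hyy] at h2
          exact (hsep y (hbs y hy) y' (hbs y' hy') hne _ _ h1 h2).1 rfl
      set s' := s \ bad with hs'
      have hs'c : g ≤ s'.card := by
        have h1 : s.card - bad.card ≤ s'.card := Finset.le_card_sdiff bad s
        have h2 : Z.card ≤ X.card + 1 := Finset.card_insert_le a X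
        have h3 : 2 * ((e + 1) * c) ≤ 2 * (D * c) := Nat.mul_le_mul_left _ hec
        omega
      have hs's : ∀ y ∈ s', y ∈ s ∧ y ∉ Z ∧ ∀ z ∈ Z, ¬ Reach G O y ρ z := by
        intro y hy
        rw [hs', Finset.mem_sdiff, hbad, Finset.mem_filter, not_and, not_or] at hy
        have := hy.2 hy.1
        refine ⟨hy.1, this.1, ?_⟩
        intro z hz hr
        exact this.2 ⟨z, hz, hr⟩
      -- the inner sets
      have hex : ∀ y, ∃ P : Finset V, y ∈ s' → (∀ w ∈ P, Reach G O y ρ w) ∧ Ind G P ∧
          g ^ j ≤ P.card := by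
        intro y
        by_cases hy : y ∈ s'
        swap
        · exact ⟨∅, fun h => absurd h hy⟩
        obtain ⟨i, hi, hiK, rfl⟩ := hsm y (hs's y hy).1
        set B' : ℕ → Finset V := fun h => insert (x i) (O.filter (fun w => Reach G O (x i) h w))
          with hBdef
        have hBm' : ∀ h w, w ∈ B' h ↔ w = x i ∨ Reach G O (x i) h w := by
          intro h w
          rw [hBdef]
          simp only [Finset.mem_insert, Finset.mem_filter]
          constructor
          · rintro (h1 | h1)
            · exact Or.inl h1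
            · exact Or.inr h1.2
          · rintro (h1 | h1)
            · exact Or.inl h1
            · exact Or.inr ⟨h1.1, h1⟩
        have hBin : Balls G W (S \ s) B' (x i) (j * (t + 2) + 1) :=
          balls_of_cyc hx hno hLcl O S s hOmem rfl rfl B' i hi hiK hBm' _ (by omega)
        obtain ⟨y', hyW, hyo, hyadj⟩ := hx.out hdeg i
        have hyO : y' ∈ O := (hOmem y').2 ⟨hyW, hyo⟩
        obtain ⟨I, hI, hIa, hIi, hIc⟩ := ih (e + 1) (by omega) (S \ s) B' (x i) hBin hXc
          ⟨y', (hBm' _ _).2 (Or.inr (Reach.of_adj le_rfl hyO hyadj)), hyadj⟩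
        refine ⟨I, fun _ => ⟨?_, hIi, hIc⟩⟩
        intro w hw
        rcases (hBm' _ w).1 (hI hw) with h1 | h1
        · rw [h1] at hw
          exact absurd hw hIa
        · rw [hρdef]
          exact h1
      choose P hP using hex
      obtain ⟨h1, h2⟩ := glue_ind G s' P (fun y hy => (hP y hy).2.1) (by
        intro y hy y' hy' hne w hw w' hw'
        exact hsep y (hs's y hy).1 y' (hs's y' hy').1 hne w w' ((hP y hy).1 w hw)
          ((hP y' hy').1 w' hw'))
      refine ⟨s'.biUnion P, ?_, ?_, h1, ?_⟩
      · intro w hw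
        rw [Finset.mem_biUnion] at hw
        obtain ⟨y, hy, hwy⟩ := hw
        obtain ⟨hys, hyZ, hygood⟩ := hs's y hy
        rw [hZ, Finset.mem_insert, not_or] at hyZ
        have hyB : y ∈ B (t + 2) := by
          obtain ⟨i, hi, hiK, rfl⟩ := hsm y hys
          have hadj : G.Adj (x (i + 1)) (x i) := (hx.isF.1 i).symm
          rcases hB.s2 t (by omega) (x (i + 1)) (hLB hiK) (hLa _ hiK) (x i) (hx.inW i) hadj with
            h3 | h3
          · exact h3
          · exact absurd h3 hyZ.2
        have h3 := reach_in_ball hB (ρ := ρ) (t := t) (O := O) (y := y) (by omega) hOW hyB hyZ.1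
          (by
            intro w hw
            constructor
            · rintro rfl
              exact hygood w (by rw [hZ]; exact Finset.mem_insert_self _ _) hw
            · intro hwX
              exact hygood w (by rw [hZ]; exact Finset.mem_insert_of_mem hwX) hw) w
          ((hP y hy).1 w hwy)
        exact hBm _ _ (by omega) h3
      · intro ha
        rw [Finset.mem_biUnion] at ha
        obtain ⟨y, hy, hay⟩ := ha
        exact (hs's y hy).2.2 a (by rw [hZ]; exact Finset.mem_insert_self _ _) ((hP y hy).1 a hay)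
      · rw [h2]
        have h4 : s'.card * g ^ j ≤ ∑ y ∈ s', (P y).card := by
          rw [← smul_eq_mul, ← Finset.sum_const]
          exact Finset.sum_le_sum fun y hy => (hP y hy).2.2
        calc g ^ (j + 1) = g * g ^ j := by ring
          _ ≤ s'.card * g ^ j := Nat.mul_le_mul_right _ hs'c
          _ ≤ _ := h4

end Vale.Agent.P048.H9
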