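import Vale.Agent.P048.H9.Poly

set_option linter.all false

/-! `n ≤ (m / 2) ^ D` for `m ≥ 200 D ^ 4`. -/

namespace Vale.Agent.P048.H9

open Finset Vale.Agent.P048

theorem exp_four : ∀ l : ℕ, 9 ≤ l → (24 * (l + 1)) ^ 4 ≤ 200 ^ 3 * 2 ^ l := by
  intro l hl
  induction l, hl using Nat.le_induction with
  | base => norm_num
  | succ l hl ih =>
    have h1 : (24 * (l + 1 + 1)) ^ 4 ≤ (24 * (l + 1)) ^ 4 * 2 := by
      obtain ⟨r, rfl⟩ : ∃ r, l = 9 + r := ⟨l - 9, by omega⟩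
      nlinarith only [Nat.zero_le r, Nat.zero_le (r ^ 2), Nat.zero_le (r ^ 3), Nat.zero_le (r ^ 4)]
    calc (24 * (l + 1 + 1)) ^ 4 ≤ (24 * (l + 1)) ^ 4 * 2 := h1
      _ ≤ (200 ^ 3 * 2 ^ l) * 2 := Nat.mul_le_mul_right _ ih
      _ = 200 ^ 3 * 2 ^ (l + 1) := by ring

theorem deg_range (D m n : ℕ) (hD : 1 ≤ D) (hm : 200 * D ^ 4 ≤ m) (hn : 1 ≤ n)
    (hnm : 2 ^ D * n ≤ m ^ D) :
    IsLeast {N : ℕ | ∀ G : SimpleGraph (Fin N),
      (SimpleGraph.cycleGraph m).IsContained G ∨ ∃ s : Finset (Fin N), G.IsNIndepSet n s}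
      ((m - 1) * (n - 1) + 1) := by
  have hD4 : 1 ≤ D ^ 4 := Nat.one_le_pow _ _ hD
  obtain ⟨l, hl⟩ : ∃ l, l = Nat.log 2 m := ⟨_, rfl⟩
  have hl7 : 7 ≤ l := by
    rw [hl]
    exact Nat.le_log_of_pow_le (by norm_num) (by norm_num; omega)
  have h2l : 2 ^ l ≤ m := by
    rw [hl]
    exact Nat.pow_log_le_self 2 (by omega)
  have hml : m < 2 ^ (l + 1) := by
    rw [hl]
    exact Nat.lt_pow_succ_log_self (by norm_num) m
  refine poly_range D l m n hD (by omega) hml ?_ hn hnm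
  rcases Nat.lt_or_ge D 2 with hD2 | hD2
  · obtain rfl : D = 1 := by omega
    rw [one_pow, mul_one]
    rcases Nat.lt_or_ge l 8 with h | h
    · omega
    · exact (exp_l l h).trans h2l
  · have hD16 : 2 ^ 4 ≤ D ^ 4 := Nat.pow_le_pow_left hD2 4
    have hl9 : 9 ≤ l := by
      rw [hl]
      exact Nat.le_log_of_pow_le (by norm_num) (by norm_num at hD16 ⊢; omega)
    by_contra hcon
    push Not at hcon
    have h1 : m ^ 4 < (24 * D ^ 3 * (l + 1)) ^ 4 := Nat.pow_lt_pow_left hcon (by norm_num)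
    have h2 : (200 * D ^ 4) ^ 3 ≤ m ^ 3 := Nat.pow_le_pow_left hm 3
    have h3 := exp_four l hl9
    have h4 : (200 ^ 3 * m) * m ^ 3 < (24 * (l + 1)) ^ 4 * m ^ 3 := by
      calc (200 ^ 3 * m) * m ^ 3 = 200 ^ 3 * m ^ 4 := by ring
        _ < 200 ^ 3 * (24 * D ^ 3 * (l + 1)) ^ 4 := Nat.mul_lt_mul_of_pos_left h1 (by norm_num)
        _ = (24 * (l + 1)) ^ 4 * (200 * D ^ 4) ^ 3 := by ring
        _ ≤ (24 * (l + 1)) ^ 4 * m ^ 3 := Nat.mul_le_mul_left _ h2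
    have h5 := Nat.lt_of_mul_lt_mul_right h4
    have h6 : 200 ^ 3 * 2 ^ l ≤ 200 ^ 3 * m := Nat.mul_le_mul_left _ h2l
    omega

end Vale.Agent.P048.H9
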