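import Vale.Agent.P048.H9.Long

set_option linter.all false

/-! The ear lemma without any bound for the independence number. -/

namespace Vale.Agent.P048.H9

open Finset Vale.Agent.P048

variable {V : Type*}

/-- general form: in a level, an expanding set contains a clique -/
theorem ear_clique2 (G : SimpleGraph V) (R U : Finset V) (h M κ : ℕ) (hMκ : M ≤ 2 * κ + 1)
    (hκ : 3 ≤ κ)
    (hE : Ear G R U h) (hRU : Disjoint R U) (hh : 2 * (h + 1) ≤ M) (hno : ¬ HasC G (M + 1))
    (H : Finset V) (hHU : H ⊆ U) (hHne : H.Nonempty) (hexp : Expd G H κ) :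
    ∃ K ⊆ H, Clq G K ∧ κ + 1 ≤ K.card := by
  classical
  by_contra hcon
  rcases long_cycle2 G H κ (by omega) hHne hexp with ⟨K, hK, hKc, hKk, -⟩ |
    ⟨N, x, hN, hx, hxH, hclos, hclos2⟩
  · exact hcon ⟨K, hK, hKc, hKk⟩
  have hNpos : 0 < N := by omega
  have hdisj := Finset.disjoint_left.1 hRU
  -- the positions
  have hpos : ∀ i, x i = x (i % N) := fun i => (hx.mod i).symm
  set D : Finset V := (Finset.range N).image x with hD
  have hDmem : ∀ i, x i ∈ D := fun i => by
    rw [hpos i]
    exact Finset.mem_image_of_mem _ (Finset.mem_range.2 (Nat.mod_lt _ hNpos))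
  have hDH : D ⊆ H := by
    intro v hv
    obtain ⟨i, _, rfl⟩ := Finset.mem_image.1 hv
    exact hxH i
  rcases hE D (hDH.trans hHU) ⟨x 0, hDmem 0⟩ with ⟨z, hz, hzA⟩ | ⟨j, hj2, hjh, c, hc, hcY⟩
  · -- all on one vertex
    apply hno
    have := ear_close (G := G) (R := R) (U := U) hRU (a := x 0) (b := x (0 + (M - 1)))
      (a' := z) (b' := z) (l := arc x 0 (M - 1)) (Y := [z])
      ⟨⟨arc_chain hx _ _, arc_nodup hx _ _ (by omega)⟩, arc_head _ _ _, arc_last _ _ _⟩
      (by
        intro v hv
        obtain ⟨r, _, hr⟩ := mem_arc.1 hv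
        rw [← hr]
        exact hHU (hxH _))
      ⟨⟨by simp, by simp⟩, by simp, by simp⟩ (by simpa using hz) (hzA _ (hDmem _)).symm
      (hzA _ (hDmem _))
    rw [arc_length] at this
    simpa only [show M - 1 + 1 = M by omega, List.length_cons, List.length_nil, zero_add] using this
  · -- a colouring
    have hcx : ∃ i i', c (x i) ≠ c (x i') := by
      obtain ⟨w, hw, w', hw', hne⟩ := hc
      obtain ⟨i, _, rfl⟩ := Finset.mem_image.1 hw
      obtain ⟨i', _, rfl⟩ := Finset.mem_image.1 hw'
      exact ⟨i, i', hne⟩
    obtain ⟨ℓ, hℓ⟩ : ∃ ℓ, ℓ + 2 * j = M + 1 := ⟨M + 1 - 2 * j, by omega⟩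
    -- no path with different end colours
    have hnopath : ∀ (a b : V) (l : List V), IsPath G a b l → l.length = ℓ + 1 →
        (∀ v ∈ l, v ∈ D) → c a = c b := by
      intro a b l hl hll hlD
      by_contra hab
      have haD : a ∈ D := hlD a (List.mem_of_head? hl.2.1)
      have hbD : b ∈ D := hlD b (List.mem_of_getLast? hl.2.2)
      obtain ⟨a', b', Y, hY, hYl, hYR, h1, h2⟩ := hcY a haD b hbD hab
      apply hno
      have := ear_close hRU hl (fun v hv => hHU (hDH (hlD v hv))) hY hYR h1 h2
      rw [hll, hYl] at this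
      rwa [show ℓ + 1 + (2 * j - 1) = M + 1 by omega] at this
    -- chords
    have hchord : ∀ i r, 2 ≤ r → r + 2 ≤ N → G.Adj (x i) (x (i + r)) →
        (∀ t, c (x (t + 2)) = c (x t)) ∧ r % 2 = 1 := by
      intro i r hr hrN hch
      rcases theta (hx.shift i) hr hrN (by simpa using hch) c (by
        obtain ⟨s, t, hst⟩ := hcx
        refine ⟨s + (N - 1) * i, t + (N - 1) * i, ?_⟩
        have key : ∀ s, x (i + (s + (N - 1) * i)) = x s := by
          intro s
          rw [show i + (s + (N - 1) * i) = s + N * i by
            obtain ⟨n, rfl⟩ : ∃ n, N = n + 1 := ⟨N - 1, by omega⟩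
            simp only [Nat.add_sub_cancel]
            ring]
          rw [hpos (s + N * i), Nat.add_mul_mod_self_left, ← hpos]
        rw [key, key]
        exact hst) (by omega : 1 ≤ ℓ) (by omega) with ⟨a, b, l, hl, hll, hlx, hne⟩ | ⟨h1, h2⟩
      · exfalso
        apply hne
        apply hnopath a b l hl hll
        intro v hv
        obtain ⟨t, rfl⟩ := hlx v hv
        exact hDmem _
      · refine ⟨fun t => ?_, h2⟩
        have key : ∀ s, x (i + (s + (N - 1) * i)) = x s := by
          intro s
          rw [show i + (s + (N - 1) * i) = s + N * i by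
            obtain ⟨n, rfl⟩ : ∃ n, N = n + 1 := ⟨N - 1, by omega⟩
            simp only [Nat.add_sub_cancel]
            ring]
          rw [hpos (s + N * i), Nat.add_mul_mod_self_left, ← hpos]
        have h3 := h1 (t + (N - 1) * i)
        rw [show t + (N - 1) * i + 2 = (t + 2) + (N - 1) * i by ring, key, key] at h3
        exact h3
    -- the neighbours of `x 0`
    set T : Finset ℕ := (Finset.range N).filter (fun t => G.Adj (x 0) (x t)) with hT
    have hTmem : ∀ t, t ∈ T ↔ t < N ∧ G.Adj (x 0) (x t) := by
      intro t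
      rw [hT, Finset.mem_filter, Finset.mem_range]
    have hlast : G.Adj (x 0) (x (N - 1)) := by
      have h1 := hx.1 (N - 1)
      rw [show N - 1 + 1 = 0 + N by omega, hx.2.1] at h1
      exact h1.symm
    have hN0 : ∀ v ∈ H, G.Adj (x 0) v → ∃ i, x i = v := by
      intro v hv hadj
      apply hclos (N - 1) hlast v hv
      rw [show N - 1 + 1 = 0 + N by omega, hx.2.1]
      exact hadj
    have hTcard : κ ≤ T.card := by
      have h1 := hexp.deg (hxH 0)
      have h2 : dg G H (x 0) ≤ T.card := by
        unfold dg
        calc _ ≤ (T.image x).card := by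
              apply Finset.card_le_card
              intro v hv
              simp only [Finset.mem_filter] at hv
              obtain ⟨i, hi⟩ := hN0 v hv.1 hv.2
              rw [Finset.mem_image]
              refine ⟨i % N, ?_, by rw [← hpos, hi]⟩
              rw [hTmem]
              refine ⟨Nat.mod_lt _ hNpos, ?_⟩
              rw [← hpos, hi]
              exact hv.2
          _ ≤ T.card := Finset.card_image_le
      omega
    -- a chord at `x 0`
    obtain ⟨r, hrT⟩ : ∃ r, r ∈ T \ {1, N - 1} := by
      have h1 : ({1, N - 1} : Finset ℕ).card ≤ 2 := Finset.card_le_two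
      have h2 := Finset.le_card_sdiff ({1, N - 1} : Finset ℕ) T
      apply Finset.card_pos.1
      omega
    rw [Finset.mem_sdiff, hTmem] at hrT
    have hr0 : r ≠ 0 := by
      rintro rfl
      exact G.loopless.irrefl _ hrT.1.2
    have hr1 : r ≠ 1 ∧ r ≠ N - 1 := by
      have := hrT.2
      simp only [Finset.mem_insert, Finset.mem_singleton, not_or] at this
      exact this
    obtain ⟨hper2, _⟩ := hchord 0 r (by omega) (by omega) (by simpa using hrT.1.2)
    have hperk : ∀ k t, c (x (t + 2 * k)) = c (x t) := by
      intro k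
      induction k with
      | zero => intro t; rfl
      | succ k ih =>
        intro t
        rw [show t + 2 * (k + 1) = (t + 2 * k) + 2 by ring, hper2, ih]
    -- `N` is even
    have hNe : N % 2 = 0 := by
      by_contra hodd
      obtain ⟨n, hn⟩ : ∃ n, N + 1 = 2 * n := ⟨(N + 1) / 2, by (clear * - hodd; omega)⟩
      have hstep : ∀ t, c (x (t + 1)) = c (x t) := by
        intro t
        rw [← hx.2.1 (t + 1), show t + 1 + N = t + 2 * n by omega, hperk]
      have hconst : ∀ t, c (x t) = c (x 0) := by
        intro t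
        induction t with
        | zero => rfl
        | succ t ih => rw [hstep, ih]
      obtain ⟨s, t, hst⟩ := hcx
      exact hst (by rw [hconst s, hconst t])
    -- all chords are odd
    have hodd : ∀ i s, s < N → G.Adj (x i) (x (i + s)) → s % 2 = 1 := by
      intro i s hs hadj
      rcases Nat.lt_or_ge s 2 with h2 | h2
      · have : s ≠ 0 := by
          rintro rfl
          exact G.loopless.irrefl _ hadj
        omega
      · rcases Nat.lt_or_ge N (s + 2) with h3 | h3
        · omega
        · exact (hchord i s h2 h3 hadj).2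
    have hpar : ∀ p q, p < N → q < N → G.Adj (x p) (x q) → p % 2 ≠ q % 2 := by
      intro p q hp hq hadj
      rcases Nat.lt_or_ge p q with h1 | h1
      · have := hodd p (q - p) (by omega) (by rwa [show p + (q - p) = q by omega])
        omega
      · have := hodd q (p - q) (by omega) (by rw [show q + (p - q) = p by omega]; exact hadj.symm)
        (clear * - h1 this; omega)
    -- the lemma of Pósa
    have h0 : HamF G D N (fun j => x (j + 1)) := by
      refine ⟨fun j _ => hx.1 (j + 1), ?_, fun j _ => hDmem _, ?_⟩
      · intro i j hi hj hij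
        exact hx.inj (i := 1) hi hj (by
          rw [Nat.add_comm 1 i, Nat.add_comm 1 j]
          exact hij)
      · intro v hv
        obtain ⟨i, hi, rfl⟩ := Finset.mem_image.1 hv
        rw [Finset.mem_range] at hi
        rcases Nat.eq_zero_or_pos i with hi0 | hi0
        · subst hi0
          refine ⟨N - 1, by omega, ?_⟩
          change x (N - 1 + 1) = x 0
          rw [show N - 1 + 1 = 0 + N by omega, hx.2.1]
        · refine ⟨i - 1, by omega, ?_⟩
          change x (i - 1 + 1) = x i
          rw [show i - 1 + 1 = i by omega]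
    have hDx : ∀ v ∈ D, ∃ p, p < N ∧ x p = v := by
      intro v hv
      obtain ⟨i, hi, rfl⟩ := Finset.mem_image.1 hv
      exact ⟨i, Finset.mem_range.1 hi, rfl⟩
    obtain ⟨S, hSD, hSne, hSend, hSc⟩ := posa G H D N (by omega) _ h0 (by
      intro f hf v hv hadj
      have hH := hf.ham h0
      obtain ⟨i, hi⟩ := hclos2 f hf.zero hH.adj hH.inj (fun j hj => by
        obtain ⟨p, _, hp⟩ := hDx _ (hH.mem j hj)
        exact ⟨p, hp⟩) v hv hadj
      rw [← hi]
      exact hDmem i)
    have hpos2 : ∀ v ∈ S, ∃ p, p < N ∧ p % 2 = 0 ∧ x p = v := by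
      intro v hv
      obtain ⟨f, hf, rfl⟩ := hSend v hv
      have hH := hf.ham h0
      have key : ∀ j, j < N → ∃ p, p < N ∧ p % 2 = (j + 1) % 2 ∧ x p = f j := by
        intro j
        induction j with
        | zero =>
          intro _
          exact ⟨1, by omega, rfl, hf.zero.symm⟩
        | succ j ih =>
          intro hj
          obtain ⟨p, hp, hp2, hpx⟩ := ih (by omega)
          obtain ⟨p', hp', hpx'⟩ := hDx _ (hH.mem (j + 1) hj)
          have h1 := hH.adj j hj
          rw [← hpx, ← hpx'] at h1
          have h2 := hpar p p' hp hp' h1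
          exact ⟨p', hp', by omega, hpx'⟩
      obtain ⟨p, hp, hp2, hpx⟩ := key (N - 1) (by omega)
      exact ⟨p, hp, by omega, hpx⟩
    have hSind : Ind G S := by
      intro a ha b hb hab
      obtain ⟨p, hp, hp2, rfl⟩ := hpos2 a ha
      obtain ⟨q, hq, hq2, rfl⟩ := hpos2 b hb
      exact hpar p q hp hq hab (by rw [hp2, hq2])
    have h1 := hexp S (hSD.trans hDH) hSind hSne
    have h2 : 3 * S.card ≤ κ * S.card := Nat.mul_le_mul_right _ hκ
    omega

end Vale.Agent.P048.H9
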