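import Vale.Agent.P048.H9.Main

set_option linter.all false

/-! `n ≤ (1 - ε) m ^ 2`. -/

namespace Vale.Agent.P048.H9

open Finset Vale.Agent.P048

theorem bern (q j : ℕ) : (q + j) * q ^ j ≤ q * (q + 1) ^ j := by
  induction j with
  | zero => simp
  | succ j ih =>
    have h1 : (q + (j + 1)) * q ≤ (q + j) * (q + 1) := by nlinarith only []
    calc (q + (j + 1)) * q ^ (j + 1) = ((q + (j + 1)) * q) * q ^ j := by ring
      _ ≤ ((q + j) * (q + 1)) * q ^ j := Nat.mul_le_mul_right _ h1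
      _ = ((q + j) * q ^ j) * (q + 1) := by ring
      _ ≤ (q * (q + 1) ^ j) * (q + 1) := Nat.mul_le_mul_right _ ih
      _ = q * (q + 1) ^ (j + 1) := by ring

theorem two_pow_mul (q : ℕ) (hq : 1 ≤ q) (h : ℕ) : 2 ^ (h / q) * q ^ h ≤ (q + 1) ^ h := by
  have h0 : 2 * q ^ q ≤ (q + 1) ^ q := by
    have h1 := bern q q
    have h2 : q * (2 * q ^ q) ≤ q * (q + 1) ^ q := by
      calc q * (2 * q ^ q) = (q + q) * q ^ q := by ring
        _ ≤ _ := h1
    exact Nat.le_of_mul_le_mul_left h2 (by omega)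
  have h1 : ∀ r, 2 ^ r * q ^ (q * r) ≤ (q + 1) ^ (q * r) := by
    intro r
    calc 2 ^ r * q ^ (q * r) = (2 * q ^ q) ^ r := by rw [mul_pow, pow_mul]
      _ ≤ ((q + 1) ^ q) ^ r := Nat.pow_le_pow_left h0 r
      _ = (q + 1) ^ (q * r) := by rw [pow_mul]
  have h2 : h = q * (h / q) + h % q := (Nat.div_add_mod h q).symm
  calc 2 ^ (h / q) * q ^ h = (2 ^ (h / q) * q ^ (q * (h / q))) * q ^ (h % q) := by
        rw [mul_assoc, ← pow_add, ← h2]
    _ ≤ (q + 1) ^ (q * (h / q)) * (q + 1) ^ (h % q) :=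
        Nat.mul_le_mul (h1 _) (Nat.pow_le_pow_left (by omega) _)
    _ = (q + 1) ^ h := by rw [← pow_add, ← h2]

theorem four_pow_le : ∀ r : ℕ, 19 ≤ r → (2 * r ^ 2) ^ 2 ≤ 2 ^ r := by
  intro r hr
  induction r, hr using Nat.le_induction with
  | base => norm_num
  | succ r hr ih =>
    have h0 : (r + 1) ^ 2 * 4 ≤ r ^ 2 * 5 := by nlinarith only [hr]
    have h1 : (2 * (r + 1) ^ 2) ^ 2 ≤ (2 * r ^ 2) ^ 2 * 2 := by
      have := Nat.mul_le_mul h0 h0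
      nlinarith only [this, Nat.zero_le (r ^ 2 * r ^ 2)]
    calc (2 * (r + 1) ^ 2) ^ 2 ≤ (2 * r ^ 2) ^ 2 * 2 := h1
      _ ≤ 2 ^ r * 2 := Nat.mul_le_mul_right _ ih
      _ = 2 ^ (r + 1) := by ring

theorem exp_eps (p q h : ℕ) (hp : p = q + 1) (hp14 : 14 ≤ p) (hh : 2 * p ^ 2 ≤ h) :
    (2 * h + 4) ^ 2 * q ^ h ≤ p ^ h := by
  have hq : 1 ≤ q := by omega
  obtain ⟨r, hr⟩ : ∃ r, r = h / q := ⟨_, rfl⟩
  have h1 : h < q * (r + 1) := by
    rw [hr]
    exact Nat.lt_mul_div_succ h (by omega)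
  have h2 : 2 * p ≤ r := by
    rw [hr, Nat.le_div_iff_mul_le (by omega)]
    nlinarith only [hh, hp]
  have h3 : 2 * h + 4 ≤ 2 * r ^ 2 := by
    nlinarith only [h1, h2, hp, hp14]
  have h4 : (2 * h + 4) ^ 2 ≤ 2 ^ r :=
    (Nat.pow_le_pow_left h3 2).trans (four_pow_le r (by omega))
  rw [hp]
  calc (2 * h + 4) ^ 2 * q ^ h ≤ 2 ^ r * q ^ h := Nat.mul_le_mul_right _ h4
    _ ≤ _ := by rw [hr]; exact two_pow_mul q hq h

theorem eps_main (p q M k κ κ' δ T : ℕ) (hp : p = q + 1) (hp14 : 14 ≤ p)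
    (hpM : 7 * p ^ 2 + 1 ≤ M) (hkp : p * (k + 1) + 7 * (M + 1) ^ 2 ≤ p * (M + 1) ^ 2)
    (h2 : q * M ≤ κ * p + q * p + q) (h4 : q * M ≤ κ' * p + q * (p + δ) + q)
    (hδ : M = κ + 1 + δ) (hT : T + M + δ + 1 = 2 * κ') : k < (κ + 1) * T := by
  zify at *
  have hq : (q : ℤ) = p - 1 := by linarith
  rw [hq] at h2 h4
  have a1 : ((p : ℤ) - 1) * M - p ^ 2 ≤ p * (κ + 1) := by nlinarith only [h2]
  have a2 : (p : ℤ) * δ ≤ M + p ^ 2 - p - 1 := by nlinarith only [h2, hδ]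
  have a3 : ((p : ℤ) ^ 2 - 5 * p + 2) * M - 5 * p ^ 3 ≤ p ^ 2 * T := by
    have b1 : ((p : ℤ) - 1) * M * p ≤ (κ' * p + (p - 1) * (p + δ) + (p - 1)) * p :=
      mul_le_mul_of_nonneg_right h4 (by linarith)
    have b2 : ((p : ℤ) - 1) * (p * δ) ≤ (p - 1) * (M + p ^ 2 - p - 1) :=
      mul_le_mul_of_nonneg_left a2 (by linarith)
    have b3 : (p : ℤ) * (p * δ) ≤ p * (M + p ^ 2 - p - 1) :=
      mul_le_mul_of_nonneg_left a2 (by linarith)
    have b4 : (p : ℤ) ^ 2 * T = p ^ 2 * (2 * κ') - p ^ 2 * M - p * (p * δ) - p ^ 2 := by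
      rw [← hT]
      ring
    rw [b4]
    nlinarith only [b1, b2, b3, hp14]
  have c0 : (14 : ℤ) * p ≤ p ^ 2 := by nlinarith only [hp14]
  have c1 : (0 : ℤ) ≤ (p - 1) * M - p ^ 2 := by nlinarith only [hpM, hp14]
  have c2 : (0 : ℤ) ≤ ((p : ℤ) ^ 2 - 5 * p + 2) * M - 5 * p ^ 3 := by
    have : (9 * p : ℤ) * M ≤ (p ^ 2 - 5 * p + 2) * M :=
      mul_le_mul_of_nonneg_right (by linarith) (by nlinarith only [hpM, hp14])
    have : (9 * p : ℤ) * (7 * p ^ 2 + 1) ≤ 9 * p * M :=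
      mul_le_mul_of_nonneg_left hpM (by linarith)
    nlinarith only [this, hp14, ‹(9 * p : ℤ) * M ≤ (p ^ 2 - 5 * p + 2) * M›]
  have c3 := mul_le_mul a1 a3 c2 (by positivity)
  have c4 : (p : ℤ) ^ 2 * ((p - 7) * (M + 1) ^ 2) <
      ((p - 1) * M - p ^ 2) * ((p ^ 2 - 5 * p + 2) * M - 5 * p ^ 3) := by
    have hM0 : (0 : ℤ) ≤ M := by positivity
    have d1 : (0 : ℤ) ≤ p ^ 2 * M * (M - (7 * p ^ 2 + 1)) :=
      mul_nonneg (by positivity) (by linarith)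
    have d2 : (0 : ℤ) ≤ (7 * p - 2) * M ^ 2 := mul_nonneg (by linarith) (by positivity)
    have d3 : (0 : ℤ) ≤ p ^ 4 * M := by positivity
    have d3' : (0 : ℤ) ≤ p ^ 3 * M := by positivity
    have d3'' : (0 : ℤ) ≤ p ^ 2 * M := by positivity
    have d4 : (0 : ℤ) ≤ p ^ 3 * (5 * p ^ 2 - 1) := mul_nonneg (by positivity) (by nlinarith only [hp14])
    have d5 : (0 : ℤ) < 7 * p ^ 2 := by positivity
    linarith only [d1, d2, d3, d3', d3'', d4, d5]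
  have c5 : (p : ℤ) ^ 2 * (p * (k + 1)) ≤ p ^ 2 * ((p - 7) * (M + 1) ^ 2) :=
    mul_le_mul_of_nonneg_left (by linarith) (by positivity)
  have c6 : (p : ℤ) ^ 3 * k < p ^ 3 * ((κ + 1) * T) := by nlinarith only [c3, c4, c5, hp14]
  exact lt_of_mul_lt_mul_left c6 (by positivity)

/-- `n ≤ (1 - 1 / t) m ^ 2` -/
theorem eps_range (t m n : ℕ) (ht : 2 ≤ t) (hm : 350 * t ^ 2 ≤ m) (hn : 1 ≤ n)
    (hnm : t * n ≤ (t - 1) * m ^ 2) :
    IsLeast {N : ℕ | ∀ G : SimpleGraph (Fin N),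
      (SimpleGraph.cycleGraph m).IsContained G ∨ ∃ s : Finset (Fin N), G.IsNIndepSet n s}
      ((m - 1) * (n - 1) + 1) := by
  have hm3 : 1400 ≤ m := by nlinarith only [ht, hm]
  refine range_of_upper m n (by omega) hn ?_
  intro G W hal hW
  obtain ⟨M, rfl⟩ : ∃ M, m = M + 1 := ⟨m - 1, by omega⟩
  obtain ⟨k, rfl⟩ : ∃ k, n = k + 1 := ⟨n - 1, by omega⟩
  simp only [Nat.add_sub_cancel] at hal hW ⊢
  obtain ⟨q, hq⟩ : ∃ q, 7 * t = q + 1 := ⟨7 * t - 1, by omega⟩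
  obtain ⟨p, hp⟩ : ∃ p, p = q + 1 := ⟨_, rfl⟩
  have hp14 : 14 ≤ p := by omega
  have hpM : 7 * p ^ 2 + 1 ≤ M := by
    have : p = 7 * t := by omega
    rw [this]
    nlinarith only [hm, ht]
  have hkp : p * (k + 1) + 7 * (M + 1) ^ 2 ≤ p * (M + 1) ^ 2 := by
    have : p = 7 * t := by omega
    obtain ⟨u, hu⟩ : ∃ u, t = u + 1 := ⟨t - 1, by omega⟩
    rw [this, hu]
    rw [hu, Nat.add_sub_cancel] at hnm
    nlinarith only [hnm]
  obtain ⟨κ, hκ⟩ : ∃ κ, κ = (q * M - q * p) / p := ⟨_, rfl⟩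
  have hqpM : q * p ≤ q * M := Nat.mul_le_mul_left _ (by nlinarith only [hpM])
  have h1 : κ * p + q * p ≤ q * M := by
    have := Nat.div_mul_le_self (q * M - q * p) p
    rw [← hκ] at this
    omega
  have h2 : q * M ≤ κ * p + q * p + q := by
    have := Nat.lt_mul_div_succ (q * M - q * p) (show 0 < p by omega)
    rw [← hκ] at this
    have e : p * (κ + 1) = κ * p + p := by ring
    omega
  have hκM : κ + 1 ≤ M := by
    by_contra hlt
    have : M ≤ κ := by omega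
    have := Nat.mul_le_mul_right p this
    have hM1 : 1 ≤ M := by omega
    rw [hp] at this h1
    nlinarith only [this, h1, hM1]
  obtain ⟨δ, hδ⟩ : ∃ δ, M = κ + 1 + δ := ⟨M - κ - 1, by omega⟩
  -- linear estimates
  have l1 : 9 * M ≤ 10 * κ := by
    by_contra hlt
    push Not at hlt
    have e1 : (10 * κ + 1) * p ≤ (9 * M) * p := Nat.mul_le_mul_right _ hlt
    nlinarith only [e1, h2, hp, hp14, hpM]
  have l2 : 10 * δ ≤ M := by omega
  have hqpM' : q * (p + δ) ≤ q * M := Nat.mul_le_mul_left _ (by nlinarith only [hpM, l2])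
  obtain ⟨κ', hκ'⟩ : ∃ κ', κ' = (q * M - q * (p + δ)) / p := ⟨_, rfl⟩
  have h3 : κ' * p + q * (p + δ) ≤ q * M := by
    have := Nat.div_mul_le_self (q * M - q * (p + δ)) p
    rw [← hκ'] at this
    omega
  have h4 : q * M ≤ κ' * p + q * (p + δ) + q := by
    have := Nat.lt_mul_div_succ (q * M - q * (p + δ)) (show 0 < p by omega)
    rw [← hκ'] at this
    have e : p * (κ' + 1) = κ' * p + p := by ring
    omega
  have l3 : 8 * M ≤ 10 * κ' := by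
    by_contra hlt
    push Not at hlt
    have e1 : (10 * κ' + 1) * p ≤ (8 * M) * p := Nat.mul_le_mul_right _ hlt
    have e2 : q * (10 * δ) ≤ q * M := Nat.mul_le_mul_left _ l2
    nlinarith only [e1, e2, h4, hp, hp14, hpM]
  have l4 : κ' ≤ κ := by
    by_contra hlt
    push Not at hlt
    have e1 : (κ + 1) * p ≤ κ' * p := Nat.mul_le_mul_right _ hlt
    nlinarith only [e1, h3, h2, hp]
  obtain ⟨T, hT⟩ : ∃ T, T + M + δ + 1 = 2 * κ' := ⟨2 * κ' - (M + δ + 1), by omega⟩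
  obtain ⟨H, hH⟩ : ∃ H, H = (2 * κ + 1 - M) / 2 - 3 := ⟨_, rfl⟩
  -- the main inequality
  have hmain : k < (κ + 1) * T := eps_main p q M k κ κ' δ T hp hp14 hpM hkp h2 h4 hδ hT
  have hk1 : k < (κ - 1) * κ + 1 := by
    obtain ⟨u, hu⟩ : ∃ u, κ = u + 1 := ⟨κ - 1, by omega⟩
    have h5 : (κ + 1) * T ≤ (κ + 1) * (κ - 2) := Nat.mul_le_mul_left _ (by omega)
    obtain ⟨v, hv⟩ : ∃ v, κ = v + 2 := ⟨κ - 2, by omega⟩
    rw [hv] at h5 hmain ⊢
    rw [show v + 2 - 2 = v by omega] at h5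
    rw [show v + 2 - 1 = v + 1 by omega]
    nlinarith only [h5, hmain]
  have hk2 : k < (κ' - 1) * κ' + 1 := by
    obtain ⟨v, hv⟩ : ∃ v, κ' = v + 1 := ⟨κ' - 1, by omega⟩
    rw [hv, Nat.add_sub_cancel]
    have e1 : T + κ + 2 * δ + 2 = 2 * v + 2 := by omega
    have e2 : v ≤ κ := by omega
    obtain ⟨w, hw⟩ : ∃ w, κ = v + w := ⟨κ - v, by omega⟩
    have e3 : T + w + 2 * δ = v := by omega
    have e4 : (κ + 1) * T ≤ v * (v + 1) := by
      rw [hw, ← e3]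
      nlinarith only []
    omega
  refine upper_quad G W M k κ κ' q q δ H T (by omega) hal hW (by omega) (by omega) hk1 ?_
    (by omega) ?_ (by omega) (by omega) ?_ (by omega) (by omega) (by omega) hk2 ?_
    (by omega) hmain
  · rw [← hp, Nat.add_comm 1 q, ← hp]
    exact h1
  · have h5 := exp_eps p q (M / 2 - 1) hp hp14 (by omega)
    have h6 : k < (2 * (M / 2 - 1) + 4) ^ 2 := by
      have e1 : M + 1 ≤ 2 * (M / 2 - 1) + 4 := by omega
      have e2 := Nat.mul_le_mul e1 e1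
      nlinarith only [e2, hkp, hp14]
    have h7 : k * q ^ (M / 2 - 1) < (2 * (M / 2 - 1) + 4) ^ 2 * q ^ (M / 2 - 1) :=
      Nat.mul_lt_mul_of_pos_right h6 (Nat.pow_pos (by omega))
    rw [← hp]
    exact lt_of_lt_of_le h7 h5
  · rw [← hp, Nat.add_comm 1 q, ← hp]
    exact h3
  · have h5 := exp_eps p q (H + 1) hp hp14 (by omega)
    have h6 : T * q ^ (H + 1) ≤ (2 * (H + 1) + 4) ^ 2 * q ^ (H + 1) :=
      Nat.mul_le_mul_right _ (by
        have g1 : T ≤ 4 * (H + 1) := by omega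
        nlinarith only [g1])
    rw [← hp]
    exact h6.trans h5

end Vale.Agent.P048.H9
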