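import Vale.Agent.P048.H9.Quad

set_option linter.all false

/-! The two ranges. -/

namespace Vale.Agent.P048.H9

open Finset Vale.Agent.P048

variable {V : Type*}

/-- an expanding set without `C_{M+1}` contains a clique with `κ + 1` vertices, if its
independence number is not exponentially large. -/
theorem glob (G : SimpleGraph V) (W : Finset V) (M k κ q : ℕ) (hM : 6 ≤ M)
    (hno : ¬ HasC G (M + 1)) (hexp : Expd G W M) (hal : AlLe G W k) (hW : W.Nonempty)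
    (hMκ : M ≤ 2 * κ + 1) (hκ : 3 ≤ κ) (hA : k < (κ - 1) * κ + 1)
    (hq : κ * (q + 1) + q * (1 + q) ≤ q * M) (hq1 : 1 ≤ q)
    (hk : k * q ^ (M / 2 - 1) < (q + 1) ^ (M / 2 - 1)) :
    ∃ K ⊆ W, Clq G K ∧ κ + 1 ≤ K.card := by
  classical
  by_contra hcon
  push Not at hcon
  obtain ⟨a, ha⟩ := hW
  have hdeg := hexp.deg ha
  have hB : Balls G W ∅ (fun _ => W) a (M / 2 - 2) :=
    ⟨ha, fun _ => subset_rfl, fun _ _ _ w hw _ => hw, fun _ _ _ _ _ w hw _ => Or.inl hw,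
      fun _ z hz _ => hz⟩
  rw [dg_eq_filter] at hdeg
  obtain ⟨w, hw⟩ := Finset.card_pos.1 (lt_of_lt_of_le (by omega : 0 < M) hdeg)
  rw [Finset.mem_filter] at hw
  obtain ⟨R, U, I, hSt, -, hg⟩ := growth hB (κ := κ) (A := k) (q := q) (δ := 0) hexp hno hMκ hκ hA
    (by omega) (by simp) (by simpa using hq) hq1
    (fun K hK hKc => by
      have := hcon K hK hKc
      omega) hal ⟨w, hw.1, hw.2⟩ (M / 2 - 2 + 1) le_rfl
  have h1 := hal I (hSt.IU.trans hSt.UB) hSt.ind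
  rw [show M / 2 - 2 + 1 = M / 2 - 1 by omega] at hg
  have h2 : I.card * q ^ (M / 2 - 1) ≤ k * q ^ (M / 2 - 1) := Nat.mul_le_mul_right _ h1
  omega

/-- a maximum clique -/
theorem exists_max_clq (G : SimpleGraph V) (W K0 : Finset V) (hK0 : K0 ⊆ W) (hc : Clq G K0) :
    ∃ K ⊆ W, Clq G K ∧ K0.card ≤ K.card ∧ ∀ K' ⊆ W, Clq G K' → K'.card ≤ K.card := by
  classical
  obtain ⟨K, hK, hKmax⟩ := Finset.exists_max_image
    (W.powerset.filter (fun K => Clq G K)) Finset.card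
    ⟨K0, by simp [hK0, hc]⟩
  rw [Finset.mem_filter, Finset.mem_powerset] at hK
  exact ⟨K, hK.1, hK.2, hKmax K0 (by simp [hK0, hc]),
    fun K' hK' hc' => hKmax K' (by simp [hK', hc'])⟩

/-- the linear range -/
theorem upper_lin (G : SimpleGraph V) (W : Finset V) (M k κ q : ℕ) (hM : 7 ≤ M)
    (hal : AlLe G W k) (hW : M * k + 1 ≤ W.card)
    (hMκ : M + 1 ≤ 2 * κ) (hκ : 3 ≤ κ) (hA : k < (κ - 1) * κ + 1)
    (hq : κ * (q + 1) + q * (1 + q) ≤ q * M) (hq1 : 1 ≤ q)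
    (hk : k * q ^ (M / 2 - 1) < (q + 1) ^ (M / 2 - 1)) (hk2 : k ≤ 2 * κ) : HasC G (M + 1) := by
  classical
  by_contra hno
  obtain ⟨H, hHW, j, hj, h1, h2, h3⟩ := exists_expd G M W.card W k le_rfl hal hW
  obtain ⟨K0, hK0, hc0, hk0⟩ := glob G H M k κ q (by omega) hno h3
    (fun I hI hIi => (h1 I hI hIi).trans hj) (Finset.card_pos.1 (by omega)) (by omega) hκ hA hq hq1
    hk
  obtain ⟨K, hK, hKc, hle, hKmax⟩ := exists_max_clq G H K0 hK0 hc0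
  obtain ⟨J, hJ, hJi, hJc⟩ := dbl G H K M hM hno (fun v hv => h3.deg hv) hK hKc hKmax (by omega)
  have := h1 J hJ hJi
  omega

/-- the quadratic range -/
theorem upper_quad (G : SimpleGraph V) (W : Finset V) (M k κ₁ κ₂ q₁ q₂ δ H T : ℕ) (hM : 7 ≤ M)
    (hal : AlLe G W k) (hW : M * k + 1 ≤ W.card)
    (hMκ : M ≤ 2 * κ₁ + 1) (hκ : 3 ≤ κ₁) (hA : k < (κ₁ - 1) * κ₁ + 1)
    (hq : κ₁ * (q₁ + 1) + q₁ * (1 + q₁) ≤ q₁ * M) (hq1 : 1 ≤ q₁)
    (hk : k * q₁ ^ (M / 2 - 1) < (q₁ + 1) ^ (M / 2 - 1))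
    (hδ : M ≤ κ₁ + 1 + δ) (hH : 2 * (H + 3) + M ≤ 2 * κ₁ + 1)
    (hq2 : κ₂ * (q₂ + 1) + q₂ * (1 + q₂ + δ) ≤ q₂ * M) (hq21 : 1 ≤ q₂) (hκ2 : M + 3 ≤ 2 * κ₂)
    (hκ3 : 3 ≤ κ₂) (hA2 : k < (κ₂ - 1) * κ₂ + 1)
    (hT1 : T * q₂ ^ (H + 1) ≤ (q₂ + 1) ^ (H + 1))
    (hT2 : T + M + δ + 1 ≤ 2 * κ₂) (hfin : k < (κ₁ + 1) * T) : HasC G (M + 1) := by
  classical
  by_contra hno
  obtain ⟨L, hLW, j, hj, h1, h2, h3⟩ := exists_expd G M W.card W k le_rfl hal hW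
  have hal' : AlLe G L k := fun I hI hIi => (h1 I hI hIi).trans hj
  obtain ⟨K, hK, hKc, hk0⟩ := glob G L M k κ₁ q₁ (by omega) hno h3
    hal' (Finset.card_pos.1 (by omega)) hMκ hκ hA hq hq1 hk
  have := quad G L M k κ₁ κ₂ q₂ δ H T hM hno h3 hal' K hK hKc hk0 hδ hH hq2 hq21 hκ2 hκ3 hA2 hT1
    hT2
  omega

/-- from the upper bound to the Ramsey number -/
theorem range_of_upper (m n : ℕ) (hm : 3 ≤ m) (hn : 1 ≤ n)
    (hup : ∀ (G : SimpleGraph (Fin ((m - 1) * (n - 1) + 1)))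
      (W : Finset (Fin ((m - 1) * (n - 1) + 1))), AlLe G W (n - 1) →
      (m - 1) * (n - 1) + 1 ≤ W.card → HasC G (m - 1 + 1)) :
    IsLeast {N : ℕ | ∀ G : SimpleGraph (Fin N),
      (SimpleGraph.cycleGraph m).IsContained G ∨ ∃ s : Finset (Fin N), G.IsNIndepSet n s}
      ((m - 1) * (n - 1) + 1) := by
  classical
  apply isLeast_of_upper m n (by omega) (by omega)
  intro G hG
  by_contra hcon
  push Not at hcon
  apply hG
  have hal : AlLe G (Finset.univ : Finset (Fin ((m - 1) * (n - 1) + 1))) (n - 1) := by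
    intro I _ hI
    by_contra hlt
    push Not at hlt
    obtain ⟨J, hJ, hc⟩ := Finset.exists_subset_card_eq (s := I) (n := n) (by omega)
    exact hcon J (fun a ha b hb => hI a (hJ ha) b (hJ hb)) hc
  have h1 := hup G Finset.univ hal (by rw [Finset.card_univ, Fintype.card_fin])
  rwa [show m - 1 + 1 = m by omega] at h1

end Vale.Agent.P048.H9
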