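import Vale.Agent.P048.H9.Posa

set_option linter.all false

/-! The long cycle lemma with closure under all Hamilton paths of the cycle. -/

namespace Vale.Agent.P048.H9

open Finset Vale.Agent.P048

variable {V : Type*}

theorem gl_path2 (G : SimpleGraph V) (U : Finset V) (κ : ℕ) (hκ : 1 ≤ κ)
    (hU : U.Nonempty) (hexp : Expd G U κ) :
    ∃ (l : List V) (s : ℕ) (y : V), IsP G l ∧ (∀ v ∈ l, v ∈ U) ∧ l.getLast? = some y ∧
      s + 1 < l.length ∧ (∀ h : s < l.length, G.Adj y l[s]) ∧
      (∀ i (hi : i + 1 < l.length), G.Adj y l[i] → s ≤ i ∧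
        ∀ v ∈ U, G.Adj (l[i + 1]) v → ∃ j, ∃ hj : j < l.length, s ≤ j ∧ l[j] = v) ∧
      ∀ l' : List V, IsP G l' → (∀ v ∈ l', v ∈ U) → l'.length = l.length → ∀ z,
        l'.getLast? = some z → ∀ v ∈ U, G.Adj z v → ∃ j, s ≤ j ∧ l'[j]? = some v := by
  classical
  obtain ⟨b, hb⟩ := hU
  have hbound : ∀ l : List V, IsP G l → (∀ v ∈ l, v ∈ U) → l.length ≤ U.card := by
    intro l hl hlm
    rw [← List.toFinset_card_of_nodup hl.2]
    apply card_le_card
    intro x hx
    exact hlm x (List.mem_toFinset.1 hx)
  -- the maximal length
  have hex : ∃ n : ℕ, ∃ l : List V, IsP G l ∧ (∀ v ∈ l, v ∈ U) ∧ l.length = n :=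
    ⟨1, [b], ⟨by simp, by simp⟩, by simpa using hb, by simp⟩
  have hfin : ∀ n : ℕ, (∃ l : List V, IsP G l ∧ (∀ v ∈ l, v ∈ U) ∧ l.length = n) →
      n ≤ U.card := by
    rintro n ⟨l, h1, h3, rfl⟩
    exact hbound l h1 h3
  set n := Nat.findGreatest (fun n => ∃ l : List V, IsP G l ∧
    (∀ v ∈ l, v ∈ U) ∧ l.length = n) U.card with hn
  obtain ⟨n0, hn0⟩ := hex
  have hspec : ∃ l : List V, IsP G l ∧ (∀ v ∈ l, v ∈ U) ∧
      l.length = n := Nat.findGreatest_spec (P := fun n => ∃ l : List V, IsP G l ∧
      (∀ v ∈ l, v ∈ U) ∧ l.length = n) (hfin n0 hn0) hn0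
  have hmax : ∀ l : List V, IsP G l → (∀ v ∈ l, v ∈ U) →
      l.length ≤ n := fun l h1 h3 => Nat.le_findGreatest (hbound l h1 h3) ⟨l, h1, h3, rfl⟩
  have hn1 : 1 ≤ n := by
    have := hmax [b] ⟨by simp, by simp⟩ (by simpa using hb)
    simpa only [ge_iff_le, List.length_cons, List.length_nil, zero_add] using this
  -- neighbours of the last vertex of a longest path
  have hend : ∀ l : List V, IsP G l → (∀ v ∈ l, v ∈ U) → l.length = n → ∀ y,
      l.getLast? = some y → ∀ v ∈ U, G.Adj y v → v ∈ l := by
    intro l' h1 h2 h3 y h4 v hv hyv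
    by_contra hcon
    have h5 : IsP G (l' ++ [v]) := by
      refine h1.append ⟨by simp, by simp⟩ ?_ ?_
      · intro x hx hxv
        rw [List.mem_singleton] at hxv
        subst hxv
        exact hcon hx
      · intro a ha c hc
        rw [h4, Option.mem_def, Option.some.injEq] at ha
        simp only [List.head?_cons, Option.mem_def, Option.some.injEq] at hc
        rw [← ha, ← hc]
        exact hyv
    have h6 := hmax (l' ++ [v]) h5 (by
      intro x hx
      rw [List.mem_append, List.mem_singleton] at hx
      rcases hx with hx | rfl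
      · exact h2 x hx
      · exact hv)
    rw [List.length_append, h3, List.length_singleton] at h6
    omega
  let Q : ℕ → Prop := fun s => ∃ (l : List V) (y a : V), IsP G l ∧ (∀ v ∈ l, v ∈ U) ∧
    l.length = n ∧ l.getLast? = some y ∧ l[s]? = some a ∧ G.Adj y a
  have hQ : ∃ s, Q s := by
    obtain ⟨l, hl, hlU, hln⟩ := hspec
    have hlne : l ≠ [] := by
      rintro rfl
      simp at hln
      omega
    obtain ⟨y, hy⟩ : ∃ y, l.getLast? = some y := by
      cases h : l.getLast? with
      | none => exact absurd (List.getLast?_eq_none_iff.1 h) hlne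
      | some y => exact ⟨y, rfl⟩
    have hyU : y ∈ U := hlU y (mem_of_getLast? hy)
    have hdeg := hexp.deg hyU
    unfold dg at hdeg
    obtain ⟨v, hv⟩ := Finset.card_pos.1 (lt_of_lt_of_le hκ hdeg)
    rw [mem_filter] at hv
    obtain ⟨j, hj, hjv⟩ := List.getElem_of_mem (hend l hl hlU hln y hy v hv.1 hv.2)
    exact ⟨j, l, y, v, hl, hlU, hln, hy, by rw [List.getElem?_eq_getElem hj, hjv], hv.2⟩
  set s := Nat.find hQ with hs
  obtain ⟨l, y, a, hl, hlU, hln, hy, ha, hya⟩ := Nat.find_spec hQ
  have hmin : ∀ j, Q j → s ≤ j := fun j hj => Nat.find_min' hQ hj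
  rw [← hs] at ha
  have hsl : s < l.length := by
    by_contra hcon
    rw [List.getElem?_eq_none (by omega)] at ha
    exact absurd ha (by simp)
  have hlast : l[l.length - 1]? = some y := by
    rw [← List.getLast?_eq_getElem?]
    exact hy
  have hs1 : s + 1 < l.length := by
    by_contra hcon
    have h1 : s = l.length - 1 := by omega
    rw [h1, hlast, Option.some.injEq] at ha
    rw [ha] at hya
    exact G.loopless.irrefl _ hya
  rw [List.getElem?_eq_getElem hsl, Option.some.injEq] at ha
  refine ⟨l, s, y, hl, hlU, hy, hs1, fun _ => by rw [ha]; exact hya, ?_, ?_⟩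
  swap
  · intro l' h1 h2 h3 z h4 v hv hzv
    obtain ⟨j, hj, hjv⟩ := List.getElem_of_mem (hend l' h1 h2 (h3.trans hln) z h4 v hv hzv)
    have hjv' : l'[j]? = some v := by rw [List.getElem?_eq_getElem hj, hjv]
    exact ⟨j, hmin j ⟨l', z, v, h1, h2, h3.trans hln, h4, hjv', hzv⟩, hjv'⟩
  intro i hi hadj
  have hsi : s ≤ i := by
    apply hmin
    exact ⟨l, y, l[i], hl, hlU, hln, hy, List.getElem?_eq_getElem (by omega), hadj⟩
  refine ⟨hsi, ?_⟩
  intro v hv hv2
  obtain ⟨h1, h2, h3, h4⟩ := hl.rotate hi hy hadj
  set l' := l.take (i + 1) ++ (l.drop (i + 1)).reverse with hl'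
  have hl'U : ∀ w ∈ l', w ∈ U := fun w hw => hlU w (h4.mem_iff.1 hw)
  have hl'n : l'.length = n := by rw [h4.length_eq, hln]
  have hvl' := hend l' h1 hl'U hl'n _ h3 v hv hv2
  have hvl : v ∈ l := h4.mem_iff.1 hvl'
  obtain ⟨k, hk, hkv⟩ := List.getElem_of_mem hvl
  refine ⟨k, hk, ?_, hkv⟩
  by_contra hcon
  have hks : k < s := by omega
  have hQk : Q k := by
    refine ⟨l', l[i + 1], v, h1, hl'U, hl'n, h3, ?_, hv2⟩
    rw [hl', List.getElem?_append_left (by rw [List.length_take]; omega),
      List.getElem?_take_of_lt (by omega), List.getElem?_eq_getElem hk, hkv]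
  have := hmin k hQk
  omega

theorem long_cycle2 (G : SimpleGraph V) (U : Finset V) (κ : ℕ) (hκ : 1 ≤ κ)
    (hU : U.Nonempty) (hexp : Expd G U κ) :
    (∃ K ⊆ U, Clq G K ∧ κ + 1 ≤ K.card ∧ ∃ p ∈ K, ∀ v ∈ U, G.Adj p v → v ∈ K) ∨
    ∃ N : ℕ, ∃ x : ℕ → V, 2 * κ + 1 ≤ N ∧ IsF G N x ∧ (∀ i, x i ∈ U) ∧
      (∀ t, G.Adj (x 0) (x t) → ∀ v ∈ U, G.Adj (x (t + 1)) v → ∃ i, x i = v) ∧
      ∀ f : ℕ → V, f 0 = x 1 → (∀ j, j + 1 < N → G.Adj (f j) (f (j + 1))) →
        (∀ i j, i < N → j < N → f i = f j → i = j) → (∀ j < N, ∃ i, x i = f j) →
        ∀ v ∈ U, G.Adj (f (N - 1)) v → ∃ i, x i = v := by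
  classical
  obtain ⟨l, s, y, hl, hlU, hy, hs1, hys, hcl, hall2⟩ := gl_path2 G U κ hκ hU hexp
  have hlast : l[l.length - 1]'(by omega) = y := by
    rw [List.getLast?_eq_getElem?, List.getElem?_eq_getElem (by omega), Option.some.injEq] at hy
    exact hy
  have hys' := hys (by omega)
  set D : Finset V := (l.drop s).toFinset with hD
  have hmemD : ∀ v, v ∈ D ↔ ∃ j, ∃ hj : j < l.length, s ≤ j ∧ l[j] = v := by
    intro v
    rw [hD, List.mem_toFinset, List.mem_iff_getElem]
    constructor
    · rintro ⟨j, hj, hjv⟩
      rw [List.length_drop] at hj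
      rw [List.getElem_drop] at hjv
      exact ⟨s + j, by omega, by omega, hjv⟩
    · rintro ⟨j, hj, hsj, hjv⟩
      refine ⟨j - s, by rw [List.length_drop]; omega, ?_⟩
      rw [List.getElem_drop]
      rw [← hjv]
      congr 1
      omega
  have hDU : D ⊆ U := by
    intro v hv
    obtain ⟨j, hj, -, rfl⟩ := (hmemD v).1 hv
    exact hlU _ (List.getElem_mem hj)
  have hDcard : D.card = l.length - s := by
    rw [hD, List.toFinset_card_of_nodup (hl.2.sublist (List.drop_sublist _ _)), List.length_drop]
  have hinj : ∀ i j (hi : i < l.length) (hj : j < l.length), l[i] = l[j] → i = j :=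
    fun i j hi hj h => (List.Nodup.getElem_inj_iff hl.2).1 h
  -- closedness
  have hclD : ∀ i (hi : i + 1 < l.length), G.Adj y l[i] → ∀ v ∈ U, G.Adj (l[i + 1]) v → v ∈ D :=
    fun i hi h v hv h2 => (hmemD v).2 ((hcl i hi h).2 v hv h2)
  by_cases hbig : 2 * κ + 1 ≤ l.length - s
  · -- the cycle
    right
    set N := l.length - s with hN
    let f : ℕ → V := fun j => if h : s + j < l.length then l[s + j] else y
    have hf : ∀ j (h : s + j < l.length), f j = l[s + j] := fun j h => by
      simp only [f, dif_pos h]
    have hfN : f (N - 1) = y := by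
      rw [hf (N - 1) (by omega), ← hlast]
      congr 1
      omega
    have hF : IsF G N (fun i => f (i % N)) := by
      apply gl_isF (by omega)
      · intro j hj
        rw [hf j (by omega), hf (j + 1) (by omega)]
        exact List.isChain_iff_getElem.1 hl.1 _ (by omega)
      · rw [hfN, hf 0 (by omega)]
        simpa using hys'
      · intro i j hi hj hij
        rw [hf i (by omega), hf j (by omega)] at hij
        have := hinj _ _ _ _ hij
        omega
    have hF2 : IsF G N (fun i => f ((i + (N - 1)) % N)) := gl_shift hF (N - 1)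
    refine ⟨N, fun i => f ((i + (N - 1)) % N), hbig, hF2, ?_, ?_, ?_⟩
    · intro i
      change f ((i + (N - 1)) % N) ∈ U
      have hm := Nat.mod_lt (i + (N - 1)) (show 0 < N by omega)
      rw [hf _ (by omega)]
      exact hlU _ (List.getElem_mem _)
    · intro t ht v hv hv2
      change G.Adj (f ((0 + (N - 1)) % N)) (f ((t + (N - 1)) % N)) at ht
      change G.Adj (f ((t + 1 + (N - 1)) % N)) v at hv2
      change ∃ i, f ((i + (N - 1)) % N) = v
      rw [zero_add, Nat.mod_eq_of_lt (show N - 1 < N by omega), hfN] at ht
      set t' := (t + (N - 1)) % N with ht'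
      have hm : t' < N := Nat.mod_lt _ (by omega)
      have hne : t' ≠ N - 1 := by
        intro h
        rw [h, hfN] at ht
        exact G.loopless.irrefl _ ht
      have e1 : (t + 1 + (N - 1)) % N = t' + 1 := by
        have h1 : t + 1 + (N - 1) = (t + (N - 1)) + 1 := by omega
        rw [h1, Nat.add_mod, ← ht', Nat.mod_eq_of_lt (show 1 < N by omega),
          Nat.mod_eq_of_lt (by omega)]
      rw [e1, hf (t' + 1) (by omega)] at hv2
      rw [hf t' (by omega)] at ht
      have h2 := hclD (s + t') (by omega) ht v hv hv2
      obtain ⟨j, hj, hsj, hjv⟩ := (hmemD v).1 h2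
      refine ⟨j - s + 1, ?_⟩
      have h3 : j - s + 1 + (N - 1) = (j - s) + N := by omega
      rw [h3, Nat.add_mod_right, Nat.mod_eq_of_lt (by omega), hf _ (by omega), ← hjv]
      congr 1
      omega
    · intro f' h0 h1 h2 h3 v hv hadj
      change f' 0 = f ((1 + (N - 1)) % N) at h0
      rw [show 1 + (N - 1) = N by omega, Nat.mod_self, hf 0 (by omega)] at h0
      have hx : ∀ i, ∃ k, ∃ hk : s + k < l.length, f ((i + (N - 1)) % N) = l[s + k] := by
        intro i
        have hm := Nat.mod_lt (i + (N - 1)) (show 0 < N by omega)
        exact ⟨_, by omega, hf _ (by omega)⟩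
      set l' := l.take s ++ (List.range N).map f' with hl'
      have hlen : l'.length = l.length := by
        rw [hl', List.length_append, List.length_take, List.length_map, List.length_range]
        omega
      have hmap : IsP G ((List.range N).map f') := by
        constructor
        · rw [List.isChain_iff_getElem]
          intro i hi
          rw [List.length_map, List.length_range] at hi
          simp only [List.getElem_map, List.getElem_range]
          exact h1 i hi
        · refine List.Nodup.map_on ?_ List.nodup_range
          intro i hi j hj hij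
          exact h2 i j (List.mem_range.1 hi) (List.mem_range.1 hj) hij
      have hP : IsP G l' := by
        refine IsP.append ⟨?_, ?_⟩ hmap ?_ ?_
        · exact hl.1.take s
        · exact hl.2.sublist (List.take_sublist _ _)
        · intro w hw hw2
          rw [List.mem_map] at hw2
          obtain ⟨j, hj, rfl⟩ := hw2
          obtain ⟨i, hi⟩ := h3 j (List.mem_range.1 hj)
          obtain ⟨k, hk, hik⟩ := hx i
          change f ((i + (N - 1)) % N) = f' j at hi
          obtain ⟨p, hp, hpw⟩ := List.getElem_of_mem hw
          rw [List.length_take] at hp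
          rw [List.getElem_take] at hpw
          rw [← hi, hik] at hpw
          have := hinj _ _ _ _ hpw
          omega
        · intro a ha c hc
          rw [List.head?_map, List.head?_range, if_neg (by omega), Option.map_some,
            Option.mem_def, Option.some.injEq] at hc
          rw [← hc, h0]
          rw [List.getLast?_take] at ha
          rcases Nat.eq_zero_or_pos s with hs0 | hs0
          · rw [if_pos hs0] at ha
            simp at ha
          · rw [if_neg (by omega), List.getElem?_eq_getElem (by omega), Option.mem_def] at ha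
            simp only [Option.some_or, Option.some.injEq] at ha
            rw [← ha]
            have h5 := List.isChain_iff_getElem.1 hl.1 (s - 1) (by omega)
            have h6 : l[s - 1 + 1]'(by omega) = l[s + 0]'(by omega) := by
              congr 1
              omega
            rw [h6] at h5
            exact h5
      have hU' : ∀ w ∈ l', w ∈ U := by
        intro w hw
        rw [hl', List.mem_append, List.mem_map] at hw
        rcases hw with hw | ⟨j, hj, rfl⟩
        · exact hlU w (List.mem_of_mem_take hw)
        · obtain ⟨i, hi⟩ := h3 j (List.mem_range.1 hj)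
          obtain ⟨k, hk, hik⟩ := hx i
          rw [← hi]
          change f ((i + (N - 1)) % N) ∈ U
          rw [hik]
          exact hlU _ (List.getElem_mem _)
      have hlast' : l'.getLast? = some (f' (N - 1)) := by
        rw [List.getLast?_eq_getElem?, hlen, hl',
          List.getElem?_append_right (by rw [List.length_take]; omega), List.length_take,
          List.getElem?_map, List.getElem?_range (by omega), Option.map_some]
        congr 2
        omega
      obtain ⟨j, hsj, hj⟩ := hall2 l' hP hU' hlen _ hlast' v hv hadj
      have hjl : j < l'.length := by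
        by_contra hcon
        rw [List.getElem?_eq_none (by omega)] at hj
        exact absurd hj (by simp)
      rw [hl', List.getElem?_append_right (by rw [List.length_take]; omega), List.length_take,
        List.getElem?_map, List.getElem?_range (by omega), Option.map_some, Option.some.injEq] at hj
      obtain ⟨i, hi⟩ := h3 (j - min s l.length) (by omega)
      exact ⟨i, hi.trans hj⟩
  · left
    -- the set of ends is a clique
    have hpair : ∀ i (hi : i + 1 < l.length) j (hj : j + 1 < l.length), G.Adj y l[i] →
        G.Adj y l[j] → l[i + 1] ≠ l[j + 1] → G.Adj l[i + 1] l[j + 1] := by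
      intro i hi j hj h1 h2 hne
      by_contra hna
      have hJ := hexp {l[i + 1], l[j + 1]} (by
        intro v hv
        rw [mem_insert, mem_singleton] at hv
        rcases hv with rfl | rfl
        · exact hlU _ (List.getElem_mem _)
        · exact hlU _ (List.getElem_mem _)) (by
        intro a ha b hb
        rw [mem_insert, mem_singleton] at ha hb
        rcases ha with rfl | rfl <;> rcases hb with rfl | rfl
        · exact G.loopless.irrefl _
        · exact hna
        · exact fun h => hna h.symm
        · exact G.loopless.irrefl _) ⟨_, mem_insert_self _ _⟩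
      rw [card_pair hne] at hJ
      have hsub : nbc G U {l[i + 1], l[j + 1]} ⊆ D := by
        intro v hv
        rw [mem_nbc] at hv
        obtain ⟨hvU, hv⟩ := hv
        have hs1 := (hcl i hi h1).1
        have hs2 := (hcl j hj h2).1
        rcases hv with hv | ⟨w, hw, hwv⟩
        · rw [mem_insert, mem_singleton] at hv
          rcases hv with rfl | rfl
          · exact (hmemD _).2 ⟨i + 1, hi, by omega, rfl⟩
          · exact (hmemD _).2 ⟨j + 1, hj, by omega, rfl⟩
        · rw [mem_insert, mem_singleton] at hw
          rcases hw with rfl | rfl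
          · exact hclD i hi h1 v hvU hwv
          · exact hclD j hj h2 v hvU hwv
      have := card_le_card hsub
      omega
    -- all entries from s on are neighbours of the last vertex
    have hall : ∀ d, ∀ (h : s + d + 1 < l.length), G.Adj y (l[s + d]'(by omega)) := by
      intro d
      induction d with
      | zero => intro h; exact hys'
      | succ d ih =>
        intro h
        have h1 := ih (by omega)
        -- y = l[L-1] is an end as well
        have hL : G.Adj y (l[l.length - 2]'(by omega)) := by
          have h2 := List.isChain_iff_getElem.1 hl.1 (l.length - 2) (by omega)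
          have h3 : l[l.length - 2 + 1]'(by omega) = y := by
            rw [← hlast]
            congr 1
            omega
          rw [h3] at h2
          exact h2.symm
        have h4 := hpair (l.length - 2) (by omega) (s + d) (by omega) hL h1 (by
          intro heq
          have := hinj _ _ _ _ heq
          omega)
        have h3 : l[l.length - 2 + 1]'(by omega) = y := by
          rw [← hlast]
          congr 1
          omega
        rw [h3] at h4
        exact h4
    have hall' : ∀ i, s ≤ i → ∀ h : i + 1 < l.length, G.Adj y (l[i]'(by omega)) := by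
      intro i hi h
      have := hall (i - s) (by omega)
      convert this using 2
      omega
    have hNv : ∀ i (hi : i + 1 < l.length), s ≤ i →
        κ + 1 ≤ (nbc G U {l[i + 1]}).card ∧ nbc G U {l[i + 1]} ⊆ D := by
      intro i hi hsi
      have h0 := hall' i hsi hi
      constructor
      · have := hexp {l[i + 1]} (by
          intro v hv
          rw [mem_singleton] at hv
          rw [hv]
          exact hlU _ (List.getElem_mem _)) (by
          intro a ha b hb
          rw [mem_singleton] at ha hb
          rw [ha, hb]
          exact G.loopless.irrefl _) (singleton_nonempty _)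
        rwa [card_singleton, mul_one] at this
      · intro v hv
        rw [mem_nbc] at hv
        obtain ⟨hvU, hv⟩ := hv
        rcases hv with hv | ⟨w, hw, hwv⟩
        · rw [mem_singleton] at hv
          rw [hv]
          exact (hmemD _).2 ⟨i + 1, hi, by omega, rfl⟩
        · rw [mem_singleton] at hw
          rw [hw] at hwv
          exact hclD i hi h0 v hvU hwv
    -- the entries after s form a clique
    have hclq : ∀ i j (hi : i < l.length) (hj : j < l.length), s < i → s < j → i ≠ j →
        G.Adj l[i] l[j] := by
      intro i j hi hj hsi hsj hij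
      have h1 := hall' (i - 1) (by omega) (by omega)
      have h2 := hall' (j - 1) (by omega) (by omega)
      have e1 : l[i - 1 + 1]'(by omega) = l[i] := by congr 1; omega
      have e2 : l[j - 1 + 1]'(by omega) = l[j] := by congr 1; omega
      have h3 := hpair (i - 1) (by omega) (j - 1) (by omega) h1 h2 (by
        rw [e1, e2]
        intro heq
        exact hij (hinj _ _ _ _ heq))
      rwa [e1, e2] at h3
    by_cases hDc : Clq G D
    · obtain ⟨h1, h2⟩ := hNv s hs1 le_rfl
      refine ⟨D, hDU, hDc, h1.trans (card_le_card h2), l[s + 1],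
        (hmemD _).2 ⟨s + 1, hs1, by omega, rfl⟩, ?_⟩
      intro v hv hadj
      exact hclD s hs1 hys' v hv hadj
    · -- the entry s is not adjacent to all others
      unfold Clq at hDc
      push Not at hDc
      obtain ⟨u, hu, v, hv, huv, hna⟩ := hDc
      obtain ⟨i, hi, hsi, rfl⟩ := (hmemD u).1 hu
      obtain ⟨j, hj, hsj, rfl⟩ := (hmemD v).1 hv
      have hij : i ≠ j := by
        rintro rfl
        exact huv rfl
      -- one of them is the entry s
      obtain ⟨p, hp, hsp, hnp⟩ : ∃ p, ∃ hp : p < l.length, s < p ∧
          ¬ G.Adj (l[s]'(by omega)) l[p] := by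
        by_cases h1 : s < i
        · by_cases h2 : s < j
          · exact absurd (hclq i j hi hj h1 h2 hij) hna
          · have : j = s := by omega
            subst this
            exact ⟨i, hi, h1, fun h => hna h.symm⟩
        · have : i = s := by omega
          subst this
          exact ⟨j, hj, by omega, hna⟩
      set E : Finset V := D.erase (l[s]'(by omega)) with hE
      obtain ⟨h1, h2⟩ := hNv (p - 1) (by omega) (by omega)
      have e1 : l[p - 1 + 1]'(by omega) = l[p] := by congr 1; omega
      rw [e1] at h1 h2
      have hsub : nbc G U {l[p]} ⊆ E := by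
        intro w hw
        rw [hE, mem_erase]
        refine ⟨?_, h2 hw⟩
        rintro rfl
        rw [mem_nbc] at hw
        rcases hw.2 with hw | ⟨w, hw, hwv⟩
        · rw [mem_singleton] at hw
          have := hinj _ _ _ _ hw
          omega
        · rw [mem_singleton] at hw
          rw [hw] at hwv
          exact hnp hwv.symm
      have hpU : l[p] ∈ U := hlU _ (List.getElem_mem _)
      refine ⟨E, (erase_subset _ _).trans hDU, ?_, h1.trans (card_le_card hsub), l[p],
        hsub (mem_nbc.2 ⟨hpU, Or.inl (mem_singleton_self _)⟩), fun v hv hadj =>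
        hsub (mem_nbc.2 ⟨hv, Or.inr ⟨_, mem_singleton_self _, hadj⟩⟩)⟩
      · intro a ha b hb hab
        rw [hE, mem_erase] at ha hb
        obtain ⟨i', hi', hsi', rfl⟩ := (hmemD a).1 ha.2
        obtain ⟨j', hj', hsj', rfl⟩ := (hmemD b).1 hb.2
        apply hclq
        · by_contra hcon
          have : i' = s := by omega
          subst this
          exact ha.1 rfl
        · by_contra hcon
          have : j' = s := by omega
          subst this
          exact hb.1 rfl
        · rintro rfl
          exact hab rfl

end Vale.Agent.P048.H9
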