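import Vale.Agent.P048.H9.Lin

set_option linter.all false

/-! Explicit ranges beyond the diagonal. -/

namespace Vale.Agent.P048.H9

open Finset Vale.Agent.P048

theorem exp_lin : ∀ h : ℕ, 30 ≤ h → (3 * h + 5) * 6 ^ h < 7 ^ h := by
  intro h hh
  induction h, hh using Nat.le_induction with
  | base => norm_num
  | succ h hh ih =>
    have h1 : (3 * (h + 1) + 5) * 6 ≤ (3 * h + 5) * 7 := by omega
    calc (3 * (h + 1) + 5) * 6 ^ (h + 1) = ((3 * (h + 1) + 5) * 6) * 6 ^ h := by ring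
      _ ≤ ((3 * h + 5) * 7) * 6 ^ h := Nat.mul_le_mul_right _ h1
      _ = ((3 * h + 5) * 6 ^ h) * 7 := by ring
      _ < 7 ^ h * 7 := by omega
      _ = 7 ^ (h + 1) := by ring

/-- `n ≤ 3 m / 2` -/
theorem lin_range (m n : ℕ) (hm : 63 ≤ m) (hn : 1 ≤ n) (hnm : 2 * n ≤ 3 * m) :
    IsLeast {N : ℕ | ∀ G : SimpleGraph (Fin N),
      (SimpleGraph.cycleGraph m).IsContained G ∨ ∃ s : Finset (Fin N), G.IsNIndepSet n s}
      ((m - 1) * (n - 1) + 1) := by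
  refine range_of_upper m n (by omega) hn ?_
  intro G W hal hW
  obtain ⟨M, rfl⟩ : ∃ M, m = M + 1 := ⟨m - 1, by omega⟩
  obtain ⟨k, rfl⟩ : ∃ k, n = k + 1 := ⟨n - 1, by omega⟩
  simp only [Nat.add_sub_cancel] at hal hW ⊢
  obtain ⟨κ, hκ⟩ : ∃ κ, κ = (6 * M - 42) / 7 := ⟨_, rfl⟩
  have h1 : 7 * κ + 42 ≤ 6 * M := by omega
  have h2 : 6 * M ≤ 7 * κ + 48 := by omega
  have h3 : 46 ≤ κ := by omega
  have h4 : k ≤ 2 * κ := by
    rcases Nat.lt_or_ge M 70 with h | h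
    · interval_cases M <;> omega
    · omega
  refine upper_lin G W M k κ 6 (by omega) hal hW (by omega) (by omega) ?_ (by omega) (by omega) ?_ h4
  · have : 45 * κ ≤ (κ - 1) * κ := Nat.mul_le_mul_right _ (by omega)
    omega
  · have h5 := exp_lin (M / 2 - 1) (by omega)
    have h6 : k * 6 ^ (M / 2 - 1) ≤ (3 * (M / 2 - 1) + 5) * 6 ^ (M / 2 - 1) :=
      Nat.mul_le_mul_right _ (by omega)
    exact lt_of_le_of_lt h6 h5

theorem exp_quad : ∀ h : ℕ, 98 ≤ h → (h + 2) ^ 2 * 9 ^ h ≤ 10 ^ h := by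
  intro h hh
  induction h, hh using Nat.le_induction with
  | base => norm_num
  | succ h hh ih =>
    have h1 : (h + 1 + 2) ^ 2 * 9 ≤ (h + 2) ^ 2 * 10 := by nlinarith only [hh]
    calc (h + 1 + 2) ^ 2 * 9 ^ (h + 1) = ((h + 1 + 2) ^ 2 * 9) * 9 ^ h := by ring
      _ ≤ ((h + 2) ^ 2 * 10) * 9 ^ h := Nat.mul_le_mul_right _ h1
      _ = ((h + 2) ^ 2 * 9 ^ h) * 10 := by ring
      _ ≤ 10 ^ h * 10 := Nat.mul_le_mul_right _ ih
      _ = 10 ^ (h + 1) := by ring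

theorem exp_T : ∀ h : ℕ, 60 ≤ h → (2 * h) * 11 ^ h ≤ 12 ^ h := by
  intro h hh
  induction h, hh using Nat.le_induction with
  | base => norm_num
  | succ h hh ih =>
    have h1 : (2 * (h + 1)) * 11 ≤ (2 * h) * 12 := by omega
    calc (2 * (h + 1)) * 11 ^ (h + 1) = ((2 * (h + 1)) * 11) * 11 ^ h := by ring
      _ ≤ ((2 * h) * 12) * 11 ^ h := Nat.mul_le_mul_right _ h1
      _ = ((2 * h) * 11 ^ h) * 12 := by ring
      _ ≤ 12 ^ h * 12 := Nat.mul_le_mul_right _ ih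
      _ = 12 ^ (h + 1) := by ring

/-- `n ≤ m ^ 2 / 4` -/
theorem quad_range (m n : ℕ) (hm : 200 ≤ m) (hn : 1 ≤ n) (hnm : 4 * n ≤ m ^ 2) :
    IsLeast {N : ℕ | ∀ G : SimpleGraph (Fin N),
      (SimpleGraph.cycleGraph m).IsContained G ∨ ∃ s : Finset (Fin N), G.IsNIndepSet n s}
      ((m - 1) * (n - 1) + 1) := by
  refine range_of_upper m n (by omega) hn ?_
  intro G W hal hW
  obtain ⟨M, rfl⟩ : ∃ M, m = M + 1 := ⟨m - 1, by omega⟩
  obtain ⟨k, rfl⟩ : ∃ k, n = k + 1 := ⟨n - 1, by omega⟩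
  simp only [Nat.add_sub_cancel] at hal hW ⊢
  obtain ⟨κ, hκ⟩ : ∃ κ, κ = (9 * M - 90) / 10 := ⟨_, rfl⟩
  have h1 : 10 * κ + 90 ≤ 9 * M := by omega
  have h2 : 9 * M ≤ 10 * κ + 99 := by omega
  obtain ⟨δ, hδ⟩ : ∃ δ, M = κ + 1 + δ := ⟨M - κ - 1, by omega⟩
  obtain ⟨κ', hκ'⟩ : ∃ κ', κ' = (11 * M - 11 * (12 + δ)) / 12 := ⟨_, rfl⟩
  have h3 : 12 * κ' + 11 * (12 + δ) ≤ 11 * M := by omega
  have h4 : 11 * M ≤ 12 * κ' + 11 * (12 + δ) + 11 := by omega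
  obtain ⟨T, hT⟩ : ∃ T, T + M + δ + 1 = 2 * κ' := ⟨2 * κ' - (M + δ + 1), by omega⟩
  obtain ⟨H, hH⟩ : ∃ H, H = (2 * κ + 1 - M) / 2 - 3 := ⟨_, rfl⟩
  -- the main inequality
  have hmain : k < (κ + 1) * T := by
    obtain ⟨a, ha⟩ : ∃ a, M = 199 + a := ⟨M - 199, by omega⟩
    have e1 : 1702 + 9 * a ≤ 10 * (κ + 1) := by omega
    have e2 : 1188 + 11 * a ≤ 20 * T := by omega
    have e3 := Nat.mul_le_mul e1 e2
    subst ha
    nlinarith only [e3, hnm]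
  have hk1 : k < (κ - 1) * κ + 1 := by
    obtain ⟨u, hu⟩ : ∃ u, κ = u + 1 := ⟨κ - 1, by omega⟩
    have h5 : (κ + 1) * T ≤ (κ + 1) * (κ - 2) := Nat.mul_le_mul_left _ (by omega)
    obtain ⟨v, hv⟩ : ∃ v, κ = v + 2 := ⟨κ - 2, by omega⟩
    rw [hv] at h5 hmain ⊢
    rw [show v + 2 - 2 = v by omega] at h5
    rw [show v + 2 - 1 = v + 1 by omega]
    nlinarith only [h5, hmain]
  have hk2 : k < (κ' - 1) * κ' + 1 := by
    obtain ⟨v, hv⟩ : ∃ v, κ' = v + 1 := ⟨κ' - 1, by omega⟩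
    obtain ⟨a, ha⟩ : ∃ a, M = 199 + a := ⟨M - 199, by omega⟩
    have e1 : 1420 + 8 * a ≤ 10 * v := by omega
    have e3 := Nat.mul_le_mul e1 e1
    rw [hv, Nat.add_sub_cancel]
    subst ha
    nlinarith only [e3, hnm]
  refine upper_quad G W M k κ κ' 9 11 δ H T (by omega) hal hW (by omega) (by omega) hk1 (by omega)
    (by omega) ?_ (by omega) (by omega) (by omega) (by omega) (by omega) (by omega) hk2 ?_
    (by omega) hmain
  · have h5 := exp_quad (M / 2 - 1) (by omega)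
    have h6 : k < (M / 2 - 1 + 2) ^ 2 := by
      have e1 : M + 1 ≤ 2 * (M / 2 - 1 + 2) := by omega
      have e2 := Nat.mul_le_mul e1 e1
      nlinarith only [e2, hnm]
    have h7 : k * 9 ^ (M / 2 - 1) < (M / 2 - 1 + 2) ^ 2 * 9 ^ (M / 2 - 1) :=
      Nat.mul_lt_mul_of_pos_right h6 (by positivity)
    exact lt_of_lt_of_le h7 h5
  · have h5 := exp_T (H + 1) (by omega)
    have h6 : T * 11 ^ (H + 1) ≤ (2 * (H + 1)) * 11 ^ (H + 1) :=
      Nat.mul_le_mul_right _ (by omega)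
    exact h6.trans h5

end Vale.Agent.P048.H9
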