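import Vale.Agent.P048.H9.Deep
import Vale.Agent.P048.H9.Eps

set_option linter.all false

/-! The polylogarithmic range. -/

namespace Vale.Agent.P048.H9

open Finset Vale.Agent.P048

variable {V : Type*}

theorem upper_poly (G : SimpleGraph V) (W : Finset V) (M k c q t g D : ℕ) (hM : 7 ≤ M)
    (hal : AlLe G W k) (hW : M * k + 1 ≤ W.card) (hq1 : 1 ≤ q) (ht : 1 ≤ t)
    (ht2 : 2 * (t + 1) ≤ M) (hc : M + q * (q + 1) ≤ (q + 1) * c)
    (hg : g + 2 * D * c + 1 ≤ M + c) (hg1 : 1 ≤ g)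
    (hr : 2 * ((D - 1) * (t + 2) + 1) + 2 + 2 * (D * c) ≤ M)
    (hgr : g ^ D * q ^ t ≤ (q + 1) ^ t) (hk : k < g ^ D) : HasC G (M + 1) := by
  classical
  by_contra hno
  obtain ⟨L, hLW, j, hj, h1, h2, h3⟩ := exists_expd G M W.card W k le_rfl hal hW
  obtain ⟨a, ha⟩ := Finset.card_pos.1 (show 0 < L.card by omega)
  have hdeg := h3.deg ha
  rw [dg_eq_filter] at hdeg
  obtain ⟨w, hw⟩ := Finset.card_pos.1 (lt_of_lt_of_le (by omega : 0 < M) hdeg)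
  rw [Finset.mem_filter] at hw
  obtain ⟨I, hIL, -, hIi, hIc⟩ := deep G L M c q t g D hM hno h3 hq1 ht ht2 hc hg hg1 hr hgr D 0
    le_rfl ∅ (fun _ => L) a
    ⟨ha, fun _ => subset_rfl, fun _ _ _ w hw _ => hw, fun _ _ _ _ _ w hw _ => Or.inl hw,
      fun _ z hz _ => hz⟩ (by simp) ⟨w, hw.1, hw.2⟩
  have := h1 I hIL hIi
  omega

/-- `n ≤ (m / 2) ^ D` if `24 D ^ 3 (log₂ m + 1) ≤ m` -/
theorem poly_range (D l m n : ℕ) (hD : 1 ≤ D) (hl : 4 ≤ l) (hml : m < 2 ^ (l + 1))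
    (hm : 24 * D ^ 3 * (l + 1) ≤ m) (hn : 1 ≤ n) (hnm : 2 ^ D * n ≤ m ^ D) :
    IsLeast {N : ℕ | ∀ G : SimpleGraph (Fin N),
      (SimpleGraph.cycleGraph m).IsContained G ∨ ∃ s : Finset (Fin N), G.IsNIndepSet n s}
      ((m - 1) * (n - 1) + 1) := by
  have hD3 : D ≤ D ^ 3 := Nat.le_self_pow (by norm_num) D
  have hD2 : D ^ 2 ≤ D ^ 3 := Nat.pow_le_pow_right hD (by norm_num)
  have hDl : D ^ 3 * 5 ≤ D ^ 3 * (l + 1) := Nat.mul_le_mul_left _ (by omega)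
  have hm120 : 120 ≤ m := by
    have : 24 * D ^ 3 * (l + 1) = 24 * (D ^ 3 * (l + 1)) := by ring
    omega
  refine range_of_upper m n (by omega) hn ?_
  intro G W hal hW
  obtain ⟨M, rfl⟩ : ∃ M, m = M + 1 := ⟨m - 1, by omega⟩
  obtain ⟨k, rfl⟩ : ∃ k, n = k + 1 := ⟨n - 1, by omega⟩
  simp only [Nat.add_sub_cancel] at hal hW ⊢
  obtain ⟨q, hq⟩ : ∃ q, q = 8 * D := ⟨_, rfl⟩
  obtain ⟨c, hc⟩ : ∃ c, c = M / (q + 1) + q + 1 := ⟨_, rfl⟩
  obtain ⟨t, ht⟩ : ∃ t, t = q * (D * (l + 1)) := ⟨_, rfl⟩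
  obtain ⟨g, hg⟩ : ∃ g, g = (M + 2) / 2 := ⟨_, rfl⟩
  obtain ⟨x, hx⟩ : ∃ x, x = M / (q + 1) := ⟨_, rfl⟩
  have hx1 : (q + 1) * x ≤ M := by
    rw [hx]
    exact Nat.mul_div_le M (q + 1)
  have hx2 : M < (q + 1) * (x + 1) := by
    rw [hx]
    exact Nat.lt_mul_div_succ M (by omega)
  rw [← hx] at hc
  have hDx : 8 * (D * x) ≤ M := by
    rw [hq] at hx1
    nlinarith only [hx1]
  have hDc : D * c = D * x + (8 * D ^ 2 + D) := by
    rw [hc, hq]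
    ring
  have hcond : 22 * (D ^ 3 * (l + 1)) + 8 * D ≤ M := by
    have : 24 * D ^ 3 * (l + 1) = 24 * (D ^ 3 * (l + 1)) := by ring
    omega
  have htD : D * t = 8 * (D ^ 3 * (l + 1)) := by
    rw [ht, hq]
    ring
  have ht' : t = 8 * (D ^ 2 * (l + 1)) := by
    rw [ht, hq]
    ring
  have hD2l : D ^ 2 * (l + 1) ≤ D ^ 3 * (l + 1) := Nat.mul_le_mul_right _ hD2
  have hD2l5 : D ^ 2 * 5 ≤ D ^ 2 * (l + 1) := Nat.mul_le_mul_left _ (by omega)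
  have hD1 : 1 ≤ D ^ 2 := Nat.one_le_pow _ _ hD
  refine upper_poly G W M k c q t g D (by omega) hal hW (by omega) (by omega) (by omega) ?_ ?_
    (by omega) ?_ ?_ ?_
  · rw [hc]
    nlinarith only [hx2]
  · have h1 : 2 * D * c = 2 * (D * c) := by ring
    omega
  · obtain ⟨E, hE⟩ : ∃ E, D = E + 1 := ⟨D - 1, by omega⟩
    have h1 : (D - 1) * (t + 2) + (t + 2) = D * t + 2 * D := by
      rw [hE, Nat.add_sub_cancel]
      ring
    omega
  · have h1 : g < 2 ^ (l + 1) := by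
      refine lt_of_le_of_lt ?_ hml
      omega
    have h2 : g ^ D ≤ 2 ^ (D * (l + 1)) := by
      calc g ^ D ≤ (2 ^ (l + 1)) ^ D := Nat.pow_le_pow_left h1.le D
        _ = 2 ^ (D * (l + 1)) := by rw [← pow_mul, Nat.mul_comm]
    have h3 := two_pow_mul q (by omega) t
    have h4 : t / q = D * (l + 1) := by
      rw [ht]
      exact Nat.mul_div_cancel_left _ (by omega)
    rw [h4] at h3
    exact (Nat.mul_le_mul_right _ h2).trans h3
  · have h1 : M + 1 ≤ 2 * g := by omega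
    have h2 : (M + 1) ^ D ≤ 2 ^ D * g ^ D := by
      rw [← mul_pow]
      exact Nat.pow_le_pow_left h1 D
    have h3 : 2 ^ D * (k + 1) ≤ 2 ^ D * g ^ D := hnm.trans h2
    have h4 := Nat.le_of_mul_le_mul_left h3 (by positivity)
    omega

theorem log_arith (E p : ℕ) (hE : 1 ≤ E) (hp : 7 ≤ p) :
    (E + 1) ^ 3 * ((p + 2) * (p + 1) ^ 2) ≤ 9 * (E * p + 1) ^ 3 := by
  rcases Nat.lt_or_ge E 2 with h | h
  · obtain rfl : E = 1 := by omega
    have h1 : 8 * (p + 2) ≤ 9 * (p + 1) := by omega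
    calc (1 + 1) ^ 3 * ((p + 2) * (p + 1) ^ 2) = (8 * (p + 2)) * (p + 1) ^ 2 := by ring
      _ ≤ (9 * (p + 1)) * (p + 1) ^ 2 := Nat.mul_le_mul_right _ h1
      _ = 9 * (1 * p + 1) ^ 3 := by ring
  · have h1 : (2 * (E + 1)) ^ 3 ≤ (3 * E) ^ 3 := Nat.pow_le_pow_left (by omega) 3
    have h2 : (p + 2) * (p + 1) ^ 2 ≤ 2 * p ^ 3 := by
      obtain ⟨r, rfl⟩ : ∃ r, p = 7 + r := ⟨p - 7, by omega⟩
      nlinarith only [Nat.zero_le r, Nat.zero_le (r ^ 2), Nat.zero_le (r ^ 3)]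
    have h3 : (E * p) ^ 3 ≤ (E * p + 1) ^ 3 := Nat.pow_le_pow_left (by omega) 3
    have h4 : (2 * (E + 1)) ^ 3 * ((p + 2) * (p + 1) ^ 2) ≤ (3 * E) ^ 3 * (2 * p ^ 3) :=
      Nat.mul_le_mul h1 h2
    have h5 : (2 * (E + 1)) ^ 3 * ((p + 2) * (p + 1) ^ 2) =
        8 * ((E + 1) ^ 3 * ((p + 2) * (p + 1) ^ 2)) := by ring
    have h6 : (3 * E) ^ 3 * (2 * p ^ 3) = 54 * (E * p) ^ 3 := by ring
    omega

theorem exp_l : ∀ l : ℕ, 8 ≤ l → 24 * (l + 1) ≤ 2 ^ l := by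
  intro l hl
  induction l, hl using Nat.le_induction with
  | base => norm_num
  | succ l hl ih =>
    rw [pow_succ]
    omega

/-- the polylogarithmic range -/
theorem log_range (m n : ℕ) (hm : 256 ≤ m) (hn : 1 ≤ n)
    (h : (6 * Nat.clog 2 n) ^ 3 ≤ m * (Nat.log 2 m) ^ 2) :
    IsLeast {N : ℕ | ∀ G : SimpleGraph (Fin N),
      (SimpleGraph.cycleGraph m).IsContained G ∨ ∃ s : Finset (Fin N), G.IsNIndepSet n s}
      ((m - 1) * (n - 1) + 1) := by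
  obtain ⟨l, hl⟩ : ∃ l, l = Nat.log 2 m := ⟨_, rfl⟩
  obtain ⟨L, hL⟩ : ∃ L, L = Nat.clog 2 n := ⟨_, rfl⟩
  rw [← hl, ← hL] at h
  have hl8 : 8 ≤ l := by
    rw [hl]
    exact Nat.le_log_of_pow_le (by norm_num) (by norm_num; exact hm)
  have h2l : 2 ^ l ≤ m := by
    rw [hl]
    exact Nat.pow_log_le_self 2 (by omega)
  have hml : m < 2 ^ (l + 1) := by
    rw [hl]
    exact Nat.lt_pow_succ_log_self (by norm_num) m
  have hnL : n ≤ 2 ^ L := by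
    rw [hL]
    exact Nat.le_pow_clog (by norm_num) n
  obtain ⟨D, hD⟩ : ∃ D, D = (L - 1) / (l - 1) + 1 := ⟨_, rfl⟩
  have hD1 : 1 ≤ D := by
    rw [hD]
    exact Nat.succ_pos _
  have hL2 : L ≤ D * (l - 1) := by
    rw [hD]
    have := Nat.lt_mul_div_succ (L - 1) (show 0 < l - 1 by omega)
    rw [Nat.mul_comm] at this
    omega
  have hL3 : (D - 1) * (l - 1) ≤ L - 1 := by
    rw [hD, Nat.add_sub_cancel]
    exact Nat.div_mul_le_self (L - 1) (l - 1)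
  refine poly_range D l m n hD1 (by omega) hml ?_ hn ?_
  · rcases Nat.lt_or_ge D 2 with hD2 | hD2
    · obtain rfl : D = 1 := by omega
      have := exp_l l hl8
      rw [one_pow, mul_one]
      exact this.trans h2l
    · obtain ⟨E, rfl⟩ : ∃ E, D = E + 1 := ⟨D - 1, by omega⟩
      obtain ⟨p, rfl⟩ : ∃ p, l = p + 1 := ⟨l - 1, by omega⟩
      rw [Nat.add_sub_cancel, Nat.add_sub_cancel] at hL3
      have hEp : 7 ≤ E * p := by
        have : 1 * 7 ≤ E * p := Nat.mul_le_mul (by omega) (by omega)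
        omega
      have h1 := log_arith E p (by omega) (by omega)
      have h2 : (E * p + 1) ^ 3 ≤ L ^ 3 := Nat.pow_le_pow_left (by omega) 3
      have h3 : (24 * (E + 1) ^ 3 * (p + 1 + 1)) * (p + 1) ^ 2 ≤ m * (p + 1) ^ 2 := by
        calc (24 * (E + 1) ^ 3 * (p + 1 + 1)) * (p + 1) ^ 2
            = 24 * ((E + 1) ^ 3 * ((p + 2) * (p + 1) ^ 2)) := by ring
          _ ≤ 24 * (9 * (E * p + 1) ^ 3) := Nat.mul_le_mul_left _ h1
          _ = 216 * (E * p + 1) ^ 3 := by ring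
          _ ≤ 216 * L ^ 3 := Nat.mul_le_mul_left _ h2
          _ = (6 * L) ^ 3 := by ring
          _ ≤ m * (p + 1) ^ 2 := h
      exact Nat.le_of_mul_le_mul_right h3 (by positivity)
  · have h1 : 2 ^ D * 2 ^ L ≤ 2 ^ (D * l) := by
      rw [← pow_add]
      apply Nat.pow_le_pow_right (by norm_num)
      obtain ⟨l', rfl⟩ : ∃ l', l = l' + 1 := ⟨l - 1, by omega⟩
      rw [Nat.add_sub_cancel] at hL2
      nlinarith only [hL2]
    calc 2 ^ D * n ≤ 2 ^ D * 2 ^ L := Nat.mul_le_mul_left _ hnL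
      _ ≤ 2 ^ (D * l) := h1
      _ = (2 ^ l) ^ D := by rw [← pow_mul, Nat.mul_comm]
      _ ≤ m ^ D := Nat.pow_le_pow_left h2l D

end Vale.Agent.P048.H9
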