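import Vale.Agent.P048.Bdl.B1

set_option linter.all false

/-! Rotations (Pósa). -/

namespace Vale.Agent.P048.H9

open Finset Vale.Agent.P048

variable {V : Type*}

/-- a path with `N` vertices through exactly the vertices of `D`, as a function -/
structure HamF (G : SimpleGraph V) (D : Finset V) (N : ℕ) (f : ℕ → V) : Prop where
  adj : ∀ j, j + 1 < N → G.Adj (f j) (f (j + 1))
  inj : ∀ i j, i < N → j < N → f i = f j → i = j
  mem : ∀ j < N, f j ∈ D
  surj : ∀ v ∈ D, ∃ j < N, f j = v

/-- rotation -/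
def rotF (N : ℕ) (f : ℕ → V) (i : ℕ) : ℕ → V := fun j => if j ≤ i then f j else f (i + N - j)

/-- the paths obtained by rotations -/
inductive RotR (G : SimpleGraph V) (N : ℕ) (f₀ : ℕ → V) : (ℕ → V) → Prop
  | refl : RotR G N f₀ f₀
  | step (f : ℕ → V) (i : ℕ) : RotR G N f₀ f → i + 1 < N → G.Adj (f (N - 1)) (f i) →
      RotR G N f₀ (rotF N f i)

theorem rotF_le {N : ℕ} {f : ℕ → V} {i j : ℕ} (h : j ≤ i) : rotF N f i j = f j := if_pos h

theorem rotF_gt {N : ℕ} {f : ℕ → V} {i j : ℕ} (h : i < j) : rotF N f i j = f (i + N - j) :=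
  if_neg (by omega)

theorem HamF.rot {G : SimpleGraph V} {D : Finset V} {N : ℕ} {f : ℕ → V} (hf : HamF G D N f)
    {i : ℕ} (hi : i + 1 < N) (hadj : G.Adj (f (N - 1)) (f i)) : HamF G D N (rotF N f i) := by
  refine ⟨?_, ?_, ?_, ?_⟩
  · intro j hj
    rcases Nat.lt_trichotomy j i with h | h | h
    · rw [rotF_le (by omega), rotF_le (by omega)]
      exact hf.adj j hj
    · subst h
      rw [rotF_le le_rfl, rotF_gt (by omega), show j + N - (j + 1) = N - 1 by omega]
      exact hadj.symm
    · rw [rotF_gt h, rotF_gt (by omega)]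
      have := hf.adj (i + N - (j + 1)) (by omega)
      rw [show i + N - (j + 1) + 1 = i + N - j by omega] at this
      exact this.symm
  · intro j k hj hk h
    rcases Nat.lt_or_ge i j with h1 | h1 <;> rcases Nat.lt_or_ge i k with h2 | h2
    · rw [rotF_gt h1, rotF_gt h2] at h
      have := hf.inj _ _ (by omega) (by omega) h
      omega
    · rw [rotF_gt h1, rotF_le h2] at h
      have := hf.inj _ _ (by omega) (by omega) h
      omega
    · rw [rotF_le h1, rotF_gt h2] at h
      have := hf.inj _ _ (by omega) (by omega) h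
      omega
    · rw [rotF_le h1, rotF_le h2] at h
      exact hf.inj _ _ hj hk h
  · intro j hj
    rcases Nat.lt_or_ge i j with h1 | h1
    · rw [rotF_gt h1]
      exact hf.mem _ (by omega)
    · rw [rotF_le h1]
      exact hf.mem _ hj
  · intro v hv
    obtain ⟨j, hj, rfl⟩ := hf.surj v hv
    rcases Nat.lt_or_ge i j with h1 | h1
    · refine ⟨i + N - j, by omega, ?_⟩
      rw [rotF_gt (by omega)]
      congr 1
      omega
    · exact ⟨j, hj, rotF_le h1⟩

theorem RotR.ham {G : SimpleGraph V} {D : Finset V} {N : ℕ} {f₀ f : ℕ → V} (h : RotR G N f₀ f)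
    (h0 : HamF G D N f₀) : HamF G D N f := by
  induction h with
  | refl => exact h0
  | step f i _ hi hadj ih => exact ih.rot hi hadj

theorem RotR.zero {G : SimpleGraph V} {N : ℕ} {f₀ f : ℕ → V} (h : RotR G N f₀ f) :
    f 0 = f₀ 0 := by
  induction h with
  | refl => rfl
  | step f i _ hi hadj ih => rw [rotF_le (Nat.zero_le _), ih]

/-- consecutive on the path `f₀` -/
def Cn (N : ℕ) (f₀ : ℕ → V) (u w : V) : Prop :=
  ∃ j, j + 1 < N ∧ (f₀ j = u ∧ f₀ (j + 1) = w ∨ f₀ j = w ∧ f₀ (j + 1) = u)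

/-- the neighbours on the path of a vertex far from all ends never change -/
theorem RotR.cn {G : SimpleGraph V} {N : ℕ} {f₀ f : ℕ → V} (h : RotR G N f₀ f) {u : V}
    (hu : ∀ g, RotR G N f₀ g → g (N - 1) ≠ u)
    (hu2 : ∀ g, RotR G N f₀ g → ¬ Cn N f₀ u (g (N - 1))) :
    ∀ j, j + 1 < N → (f j = u → Cn N f₀ u (f (j + 1))) ∧ (f (j + 1) = u → Cn N f₀ u (f j)) := by
  induction h with
  | refl =>
    intro j hj
    exact ⟨fun h => ⟨j, hj, Or.inl ⟨h, rfl⟩⟩, fun h => ⟨j, hj, Or.inr ⟨rfl, h⟩⟩⟩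
  | step f i hf hi hadj ih =>
    intro j hj
    have hg := RotR.step f i hf hi hadj
    have hgN : rotF N f i (N - 1) = f (i + 1) := by
      rw [rotF_gt (by omega)]
      congr 1
      omega
    rcases Nat.lt_trichotomy j i with h | h | h
    · rw [rotF_le (by omega), rotF_le (by omega)]
      exact ih j hj
    · subst h
      rw [rotF_le le_rfl, rotF_gt (by omega), show j + N - (j + 1) = N - 1 by omega]
      constructor
      · intro h1
        exfalso
        have h2 := (ih j hj).1 h1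
        rw [← hgN] at h2
        exact hu2 _ hg h2
      · intro h1
        exact absurd h1 (hu f hf)
    · rw [rotF_gt h, rotF_gt (by omega)]
      have h1 := ih (i + N - (j + 1)) (by omega)
      rw [show i + N - (j + 1) + 1 = i + N - j by omega] at h1
      exact ⟨h1.2, h1.1⟩

/-- the lemma of Pósa -/
theorem posa (G : SimpleGraph V) (U D : Finset V) (N : ℕ) (hN : 1 ≤ N) (f₀ : ℕ → V)
    (h0 : HamF G D N f₀)
    (hcl : ∀ f, RotR G N f₀ f → ∀ v ∈ U, G.Adj (f (N - 1)) v → v ∈ D) :
    ∃ S ⊆ D, S.Nonempty ∧ (∀ v ∈ S, ∃ f, RotR G N f₀ f ∧ f (N - 1) = v) ∧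
      (nbc G U S).card ≤ 3 * S.card := by
  classical
  set S : Finset V := D.filter (fun v => ∃ f, RotR G N f₀ f ∧ f (N - 1) = v) with hS
  have hSmem : ∀ v, v ∈ S ↔ v ∈ D ∧ ∃ f, RotR G N f₀ f ∧ f (N - 1) = v := by
    intro v
    rw [hS, Finset.mem_filter]
  have hSend : ∀ f, RotR G N f₀ f → f (N - 1) ∈ S := fun f hf =>
    (hSmem _).2 ⟨(hf.ham h0).mem _ (by omega), f, hf, rfl⟩
  set T : Finset ℕ := (range N).filter (fun j => f₀ j ∈ S) with hT
  have hTc : T.card = S.card := by
    have : T.image f₀ = S := by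
      ext v
      rw [Finset.mem_image]
      constructor
      · rintro ⟨j, hj, rfl⟩
        exact (Finset.mem_filter.1 hj).2
      · intro hv
        obtain ⟨j, hj, rfl⟩ := h0.surj v ((hSmem v).1 hv).1
        exact ⟨j, Finset.mem_filter.2 ⟨Finset.mem_range.2 hj, hv⟩, rfl⟩
    rw [← this, Finset.card_image_of_injOn]
    intro i hi j hj hij
    rw [Finset.mem_coe, hT, Finset.mem_filter, Finset.mem_range] at hi hj
    exact h0.inj i j hi.1 hj.1 hij
  refine ⟨S, Finset.filter_subset _ _, ⟨_, hSend _ RotR.refl⟩, fun v hv => ((hSmem v).1 hv).2, ?_⟩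
  have hsub : nbc G U S ⊆ (T.image f₀ ∪ T.image (fun j => f₀ (j + 1))) ∪
      T.image (fun j => f₀ (j - 1)) := by
    intro u hu
    rw [mem_nbc] at hu
    have hkey : u ∈ S ∨ ∃ v ∈ S, Cn N f₀ u v := by
      rcases hu.2 with h | ⟨v, hv, hvu⟩
      · exact Or.inl h
      · by_contra hcon
        rw [not_or] at hcon
        obtain ⟨h1, h2⟩ := hcon
        push Not at h2
        obtain ⟨f, hf, rfl⟩ := ((hSmem v).1 hv).2
        have huD := hcl f hf u hu.1 hvu
        obtain ⟨i, hi, hiu⟩ := (hf.ham h0).surj u huD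
        have hi1 : i ≠ N - 1 := by
          rintro rfl
          rw [hiu] at hvu
          exact G.loopless.irrefl _ hvu
        have h3 := (hf.cn (u := u) (fun g hg h => h1 (h ▸ hSend g hg))
          (fun g hg => h2 _ (hSend g hg)) i (by omega)).1 hiu
        have h4 := RotR.step f i hf (by omega) (by rw [hiu]; exact hvu)
        have h5 : rotF N f i (N - 1) = f (i + 1) := by
          rw [rotF_gt (by omega)]
          congr 1
          omega
        rw [← h5] at h3
        exact h2 _ (hSend _ h4) h3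
    rw [Finset.mem_union, Finset.mem_union, Finset.mem_image, Finset.mem_image, Finset.mem_image]
    rcases hkey with h | ⟨v, hv, j, hj, ⟨h1, h2⟩ | ⟨h1, h2⟩⟩
    · left; left
      obtain ⟨j, hj, rfl⟩ := h0.surj u ((hSmem u).1 h).1
      exact ⟨j, Finset.mem_filter.2 ⟨Finset.mem_range.2 hj, h⟩, rfl⟩
    · right
      exact ⟨j + 1, Finset.mem_filter.2 ⟨Finset.mem_range.2 hj, by rw [h2]; exact hv⟩, h1⟩
    · left; right
      exact ⟨j, Finset.mem_filter.2 ⟨Finset.mem_range.2 (by omega), by rw [h1]; exact hv⟩, h2⟩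
  have h1 := Finset.card_le_card hsub
  have h2 := Finset.card_union_le (T.image f₀ ∪ T.image (fun j => f₀ (j + 1)))
    (T.image (fun j => f₀ (j - 1)))
  have h3 := Finset.card_union_le (T.image f₀) (T.image (fun j => f₀ (j + 1)))
  have h4 := Finset.card_image_le (s := T) (f := f₀)
  have h5 := Finset.card_image_le (s := T) (f := fun j => f₀ (j + 1))
  have h6 := Finset.card_image_le (s := T) (f := fun j => f₀ (j - 1))
  omega

end Vale.Agent.P048.H9
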